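import Mathlib
import Vale.Agent.P237.Slices

/-!
# P237, sharp route: equality in Brunn–Minkowski for origin-symmetric bodies
-/

open MeasureTheory Set Real Filter Topology
open scoped Pointwise RealInnerProductSpace ENNReal

namespace Vale.Agent.P237.Sharp

variable {n : ℕ}

lemma neg_mem_add {A B : Set (E n)} (hA : ∀ x ∈ A, -x ∈ A) (hB : ∀ x ∈ B, -x ∈ B) :
    ∀ x ∈ A + B, -x ∈ A + B := by
  rintro _ ⟨x, hx, y, hy, rfl⟩
  exact ⟨-x, hA x hx, -y, hB y hy, by simp [add_comm]⟩

/-- Nested bodies of equal volume agree. -/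
lemma eq_of_subset_of_volume {A B : Set (E n)} (hA : IsCompact A) (hB : IsBody B) (h : A ⊆ B)
    (hv : volume.real B ≤ volume.real A) : A = B := by
  refine Subset.antisymm h fun y hy => by_contra fun hyA => ?_
  have hy' : y ∈ closure (interior B) := by
    rw [hB.convex.closure_interior_eq_closure_of_nonempty_interior hB.nonempty]
    exact subset_closure hy
  obtain ⟨z, hz, hzA⟩ : ∃ z ∈ interior B, z ∉ A := by
    obtain ⟨z, hz1, hz2⟩ := mem_closure_iff.1 hy' Aᶜ hA.isClosed.isOpen_compl hyA
    exact ⟨z, hz2, hz1⟩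
  have hpos : 0 < volume (interior B \ A) :=
    (isOpen_interior.sdiff hA.isClosed).measure_pos volume ⟨z, hz, hzA⟩
  have hne : volume B ≠ ⊤ := hB.compact.measure_lt_top.ne
  have hsub : volume (interior B \ A) ≤ volume (B \ A) :=
    measure_mono (sdiff_subset_sdiff_left interior_subset)
  have heq : volume.real (B \ A) = volume.real B - volume.real A :=
    measureReal_sdiff h hA.measurableSet hne
  have : 0 < volume.real (B \ A) :=
    ENNReal.toReal_pos (hpos.trans_le hsub).ne'
      ((measure_mono sdiff_subset).trans_lt hB.compact.measure_lt_top).ne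
  linarith

lemma eq_one {A B : Set (E 1)} (hA : IsBody A) (hB : IsBody B) (hAs : ∀ x ∈ A, -x ∈ A)
    (hBs : ∀ x ∈ B, -x ∈ B) (hv : volume.real A = volume.real B) : A = B := by
  have key : ∀ (C : Set (E 1)), IsBody C → (∀ x ∈ C, -x ∈ C) →
      ∀ x y : E 1, |x 0| ≤ |y 0| → y ∈ C → x ∈ C := by
    intro C hC hCs x y hxy hy
    rcases (abs_nonneg (y 0)).eq_or_lt with h0 | hpos
    · have hx : x = y := by
        ext i
        rw [Fin.fin_one_eq_zero i, abs_eq_zero.1 h0.symm]
        exact abs_eq_zero.1 (le_antisymm (hxy.trans h0.ge) (abs_nonneg _))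
      rwa [hx]
    · set r := x 0 / y 0
      have hr : |r| ≤ 1 := by rw [abs_div]; exact (div_le_one hpos).2 hxy
      rw [abs_le] at hr
      have hx : x = ((1 + r) / 2) • y + ((1 - r) / 2) • -y := by
        ext i
        rw [Fin.fin_one_eq_zero i]
        have : r * y 0 = x 0 := div_mul_cancel₀ _ (abs_pos.1 hpos)
        simp; linarith
      rw [hx]
      exact hC.convex hy (hCs y hy) (by linarith) (by linarith) (by ring)
  by_cases hsub : A ⊆ B
  · exact eq_of_subset_of_volume hA.compact hB hsub hv.ge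
  · obtain ⟨x, hxA, hxB⟩ := not_subset.1 hsub
    refine (eq_of_subset_of_volume hB.compact hA (fun y hy => ?_) hv.le).symm
    rcases le_total |y 0| |x 0| with h | h
    · exact key A hA hAs y x h hxA
    · exact absurd (key B hB hBs x y h hy) hxB

/-- The lintegral of normalised slice volumes. -/
lemma lintegral_div_slice {A : Set (E (n + 1))} (hA : IsCompact A) {c : ℝ} (hc : 0 < c) :
    ENNReal.ofReal (volume.real A / c) =
      ∫⁻ θ in Ioi (0:ℝ), volume {t : ℝ | θ < volume.real (slice A t) / c} := by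
  have hm : Measurable fun t => volume.real (slice A t) := by
    refine ENNReal.measurable_toReal.comp ?_
    exact measurable_measure_prodMk_left (ν := volume) (hA.measurableSet.preimage continuous_cons.measurable)
  rw [← lintegral_eq_lintegral_meas_lt volume
    (Filter.Eventually.of_forall fun t => div_nonneg measureReal_nonneg hc.le)
    (hm.div_const c).aemeasurable]
  simp only [ENNReal.ofReal_div_of_pos hc]
  simp only [div_eq_mul_inv]
  rw [lintegral_mul_const _ hm.ennreal_ofReal]
  congr 1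
  rw [measureReal_def, ENNReal.ofReal_toReal hA.measure_lt_top.ne,
    volume_eq_lintegral_slice hA.measurableSet]
  exact lintegral_congr fun t =>
    (ENNReal.ofReal_toReal (slice_isCompact hA t).measure_lt_top.ne).symm

/-- A symmetric superlevel set of a slice profile contains the interval up to any of its points. -/
lemma slice_le_of_abs_le {C : Set (E (n + 1))} (hC : IsCompact C) (hCv : Convex ℝ C)
    (hCs : ∀ x ∈ C, -x ∈ C) {s t : ℝ} (h : |s| ≤ |t|) (ht : (slice C t).Nonempty) :
    volume.real (slice C t) ≤ volume.real (slice C s) := by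
  have habs : ∀ r : ℝ, volume.real (slice C |r|) = volume.real (slice C r) := by
    intro r
    rcases abs_cases r with ⟨h, _⟩ | ⟨h, _⟩ <;> rw [h]
    rw [slice_neg hCs, measureReal_def, Measure.measure_neg, ← measureReal_def]
  rw [← habs t, ← habs s]
  refine slice_volume_anti hC hCv hCs (abs_nonneg _) h ?_
  rcases abs_cases t with ⟨e, _⟩ | ⟨e, _⟩ <;> rw [e]
  · exact ht
  · rw [slice_neg hCs]; exact ht.neg

lemma slice_nonempty_of_pos {C : Set (E (n + 1))} {t : ℝ} (h : 0 < volume.real (slice C t)) :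
    (slice C t).Nonempty := by
  by_contra hne
  rw [not_nonempty_iff_eq_empty] at hne
  simp [hne, measureReal_def] at h

lemma strict_convex_neg_pow (m : ℕ) {x y : ℝ} (hx : 0 < x) (hy : 0 < y) (hne : x ≠ y) :
    (2 ^ (m + 1 + 1) / (x + y) ^ (m + 1)) ^ 2 < (1 / x ^ (m + 1) + 1 / y ^ (m + 1)) ^ 2 := by
  set p := 1 / x ^ (m + 1)
  set q := 1 / y ^ (m + 1)
  have h4 : (4 * x * y) ^ (m + 1) * (4 * p * q) = ((2:ℝ) ^ (m + 1 + 1)) ^ 2 := by
    have : x ^ (m + 1) * p = 1 := mul_one_div_cancel (by positivity)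
    have : y ^ (m + 1) * q = 1 := mul_one_div_cancel (by positivity)
    rw [← pow_mul, mul_comm (m + 1 + 1) 2, pow_mul, mul_pow, mul_pow]
    norm_num [pow_succ]
    linear_combination (4 * 4 ^ m * 4 * (y ^ m * y * q)) * ‹x ^ (m + 1) * p = 1› +
      (4 * 4 ^ m * 4) * ‹y ^ (m + 1) * q = 1›
  have hpq : 4 * p * q ≤ (p + q) ^ 2 := by nlinarith [sq_nonneg (p - q)]
  have hxy : 4 * x * y ≤ (x + y) ^ 2 := by nlinarith [sq_nonneg (x - y)]
  have hs : 0 < ((x + y) ^ 2) ^ (m + 1) := by positivity
  rw [div_pow, ← h4, ← pow_mul, mul_comm (m + 1) 2, pow_mul (x + y), div_lt_iff₀' hs]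
  have hlt : 4 * x * y < (x + y) ^ 2 := by nlinarith [mul_self_pos.2 (sub_ne_zero.2 hne)]
  exact mul_lt_mul (pow_lt_pow_left₀ hlt (by positivity) (by omega)) hpq (by positivity) hs.le

/-- The layer-cake form of Brunn–Minkowski for symmetric profiles, with a possible gain. -/
lemma layer_bound {A B D : Set (E (n + 1 + 1))} (hA : IsBody A) (hB : IsBody B)
    (hAs : ∀ x ∈ A, -x ∈ A) (hBs : ∀ x ∈ B, -x ∈ B) (hDc : IsCompact D) (hDv : Convex ℝ D)
    (hDs : ∀ x ∈ D, -x ∈ D) {α β a b δ e : ℝ} (he0 : 0 < e) (hα0 : 0 < α) (hβ0 : 0 < β)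
    (hδ0 : 0 < δ) (ha : a = α ^ e) (hb : b = β ^ e) (hδ : δ = (a + b) ^ (n + 1))
    (hαmax : ∀ t, volume.real (slice A t) ≤ α) (hβmax : ∀ t, volume.real (slice B t) ≤ β)
    (hα : α = volume.real (slice A 0)) (hβ : β = volume.real (slice B 0))
    (hpow : ∀ x : ℝ, 0 ≤ x → (x ^ e) ^ (n + 1) = x)
    (hbm : ∀ s t, 0 < volume.real (slice A s) → 0 < volume.real (slice B t) →
      volume.real (slice A s) ^ e + volume.real (slice B t) ^ e ≤
        volume.real (slice D (s + t)) ^ e)
    {η w : ℝ} (hη : 0 ≤ η) (hw : 0 ≤ w) (hU : 0 < η → ∀ θ ∈ Ioo 1 (1 + η),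
      ENNReal.ofReal w ≤ volume {t : ℝ | θ < volume.real (slice D t) / δ}) :
    volume.real A / α + volume.real B / β + w * η ≤ volume.real D / δ := by
  subst a b
  -- the layer comparison
  set S := fun θ : ℝ => {t : ℝ | θ < volume.real (slice A t) / α}
  set T := fun θ : ℝ => {t : ℝ | θ < volume.real (slice B t) / β}
  set U := fun θ : ℝ => {t : ℝ | θ < volume.real (slice D t) / δ}
  have hUint : ∀ θ : ℝ, 0 < θ → ∀ z ∈ U θ, Icc (-|z|) |z| ⊆ U θ := by
    intro θ hθ z hz w hw
    have hz' : θ < volume.real (slice D z) / δ := hz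
    have hne : (slice D z).Nonempty := slice_nonempty_of_pos (by
      have := (lt_div_iff₀ hδ0).1 hz'; nlinarith)
    exact hz'.trans_le (div_le_div_of_nonneg_right
      (slice_le_of_abs_le hDc hDv hDs (abs_le.2 hw) hne) hδ0.le)
  have hlayer : ∀ θ : ℝ, 0 < θ → θ < 1 → volume (S θ) + volume (T θ) ≤ volume (U θ) := by
    intro θ hθ hθ1
    have hxy : ∀ x ∈ S θ, ∀ y ∈ T θ, |x| + |y| ∈ U θ := by
      intro x hx y hy
      have hx' : θ * α < volume.real (slice A x) := (lt_div_iff₀ hα0).1 hx
      have hy' : θ * β < volume.real (slice B y) := (lt_div_iff₀ hβ0).1 hy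
      have hxp : 0 < volume.real (slice A x) := (mul_pos hθ hα0).trans hx'
      have hyp : 0 < volume.real (slice B y) := (mul_pos hθ hβ0).trans hy'
      have hA' : volume.real (slice A x) ≤ volume.real (slice A |x|) := by
        exact slice_le_of_abs_le hA.compact hA.convex hAs (by simp) (slice_nonempty_of_pos hxp)
      have hB' : volume.real (slice B y) ≤ volume.real (slice B |y|) := by
        exact slice_le_of_abs_le hB.compact hB.convex hBs (by simp) (slice_nonempty_of_pos hyp)
      have h1 := hbm |x| |y| (hxp.trans_le hA') (hyp.trans_le hB')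
      have h2 : θ ^ e * α ^ e < volume.real (slice A |x|) ^ e := by
        rw [← mul_rpow hθ.le hα0.le]
        exact rpow_lt_rpow (by positivity) (hx'.trans_le hA') he0
      have h3 : θ ^ e * β ^ e < volume.real (slice B |y|) ^ e := by
        rw [← mul_rpow hθ.le hβ0.le]
        exact rpow_lt_rpow (by positivity) (hy'.trans_le hB') he0
      have h4 := pow_lt_pow_left₀ (by linarith :
        θ ^ e * (α ^ e + β ^ e) < volume.real (slice D (|x| + |y|)) ^ e) (by positivity)
        (by omega : n + 1 ≠ 0)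
      rw [mul_pow, hpow _ hθ.le, hpow _ measureReal_nonneg, ← hδ] at h4
      exact (lt_div_iff₀ hδ0).2 h4
    have h0S : (0:ℝ) ∈ S θ := by show θ < _ / α; rwa [← hα, div_self hα0.ne']
    have h0T : (0:ℝ) ∈ T θ := by show θ < _ / β; rwa [← hβ, div_self hβ0.ne']
    obtain ⟨R, hR⟩ := (hDc.image (f := fun z : E (n + 1 + 1) => |hd z|) (by fun_prop)).bddAbove
    have hUb : ∀ z ∈ U θ, |z| ≤ R := by
      intro z hz
      obtain ⟨y, hy⟩ := slice_nonempty_of_pos (C := D) (t := z) (by
        have := (lt_div_iff₀ hδ0).1 (show θ < volume.real (slice D z) / δ from hz); nlinarith)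
      exact (by simp : |z| = |hd (cons z y)|).le.trans (hR ⟨_, hy, rfl⟩)
    have hbS : BddAbove ((fun x : ℝ => |x|) '' S θ) := ⟨R, by
      rintro _ ⟨x, hx, rfl⟩
      refine le_trans ?_ (hUb _ (hxy x hx 0 h0T))
      simp [abs_nonneg, abs_of_nonneg]⟩
    have hbT : BddAbove ((fun x : ℝ => |x|) '' T θ) := ⟨R, by
      rintro _ ⟨y, hy, rfl⟩
      refine le_trans ?_ (hUb _ (hxy 0 h0S y hy))
      simp [abs_nonneg, abs_of_nonneg]⟩
    set σ := sSup ((fun x : ℝ => |x|) '' S θ)
    set τ := sSup ((fun x : ℝ => |x|) '' T θ)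
    have hσ0 : 0 ≤ σ := by simpa using le_csSup hbS ⟨0, h0S, rfl⟩
    have hτ0 : 0 ≤ τ := by simpa using le_csSup hbT ⟨0, h0T, rfl⟩
    have hS : volume (S θ) ≤ ENNReal.ofReal (σ - -σ) := by
      rw [← Real.volume_Icc]
      exact measure_mono fun x hx => abs_le.1 (le_csSup hbS ⟨x, hx, rfl⟩)
    have hT : volume (T θ) ≤ ENNReal.ofReal (τ - -τ) := by
      rw [← Real.volume_Icc]
      exact measure_mono fun x hx => abs_le.1 (le_csSup hbT ⟨x, hx, rfl⟩)
    refine (add_le_add hS hT).trans ?_
    rw [← ENNReal.ofReal_add (by linarith) (by linarith)]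
    have hU : volume (Ioo (-(σ + τ)) (σ + τ)) ≤ volume (U θ) := by
      refine measure_mono fun w hw => ?_
      have hw' : |w| < σ + τ := abs_lt.2 hw
      set ε := σ + τ - |w|
      have hε : 0 < ε := sub_pos.2 hw'
      obtain ⟨_, ⟨x, hx, rfl⟩, hx'⟩ := exists_lt_of_lt_csSup
        ((Set.nonempty_of_mem h0S).image fun x : ℝ => |x|) (by linarith : σ - ε / 2 < σ)
      obtain ⟨_, ⟨y, hy, rfl⟩, hy'⟩ := exists_lt_of_lt_csSup
        ((Set.nonempty_of_mem h0T).image fun x : ℝ => |x|) (by linarith : τ - ε / 2 < τ)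
      refine hUint θ hθ _ (hxy x hx y hy) (abs_le.1 ?_)
      rw [abs_of_nonneg (by positivity : 0 ≤ |x| + |y|)]
      linarith [hx', hy']
    rw [Real.volume_Ioo] at hU
    refine le_trans (le_of_eq ?_) hU
    congr 1; ring
  have hvan : ∀ θ : ℝ, 1 ≤ θ → volume (S θ) + volume (T θ) = 0 := by
    intro θ hθ
    have hSe : S θ = ∅ := eq_empty_of_forall_notMem fun t ht => by
      have h' : θ < volume.real (slice A t) / α := ht
      have := (div_le_one hα0).2 (hαmax t); linarith
    have hTe : T θ = ∅ := eq_empty_of_forall_notMem fun t ht => by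
      have h' : θ < volume.real (slice B t) / β := ht
      have := (div_le_one hβ0).2 (hβmax t); linarith
    simp [hSe, hTe]
  have hSmeas : Measurable fun θ => volume (S θ) :=
    Antitone.measurable fun x y hxy => measure_mono fun t ht => lt_of_le_of_lt hxy ht
  have hpt : ∀ θ ∈ Ioi (0:ℝ), volume (S θ) + volume (T θ) +
      (Ioo 1 (1 + η)).indicator (fun _ => ENNReal.ofReal w) θ ≤ volume (U θ) := by
    intro θ hθ
    rcases lt_or_ge θ 1 with h | h
    · rw [indicator_of_notMem (fun hmem => by linarith [hmem.1]), add_zero]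
      exact hlayer θ hθ h
    · rw [hvan θ h, zero_add]
      by_cases hmem : θ ∈ Ioo 1 (1 + η)
      · rw [indicator_of_mem hmem]
        exact hU (by linarith [hmem.1, hmem.2]) θ hmem
      · simp [indicator_of_notMem hmem]
  have hsum := lintegral_mono_ae (μ := volume.restrict (Ioi (0:ℝ)))
    ((ae_restrict_mem measurableSet_Ioi).mono hpt)
  rw [lintegral_add_right _ (measurable_const.indicator measurableSet_Ioo),
    lintegral_add_left hSmeas, setLIntegral_indicator measurableSet_Ioo,
    inter_eq_left.2 (show Ioo (1:ℝ) (1 + η) ⊆ Ioi 0 from fun x hx => lt_trans one_pos hx.1), setLIntegral_const,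
    Real.volume_Ioo, ← lintegral_div_slice hA.compact hα0,
    ← lintegral_div_slice hB.compact hβ0, ← lintegral_div_slice hDc hδ0,
    ← ENNReal.ofReal_mul hw, ← ENNReal.ofReal_add (by positivity) (by positivity),
    ← ENNReal.ofReal_add (by positivity) (mul_nonneg hw (by linarith)),
    ENNReal.ofReal_le_ofReal_iff (by positivity)] at hsum
  simpa using hsum

/-- A profile whose centre exceeds `δ` stays above a level `> δ` on an interval. -/
lemma lift_level {D : Set (E (n + 1 + 1))} (hDc : IsCompact D) (hDv : Convex ℝ D) {δ x0 : ℝ}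
    (hδ0 : 0 < δ) (hh : 0 < x0) (hne : (slice D x0).Nonempty)
    (hcon : δ < volume.real (slice D 0)) :
    ∃ η w : ℝ, 0 < η ∧ 0 < w ∧ (1 + η) * δ ≤ volume.real (slice D w) := by
  set e : ℝ := (((n + 1 : ℕ):ℝ)⁻¹)
  have he0 : 0 < e := by positivity
  have hpow : ∀ x : ℝ, 0 ≤ x → (x ^ e) ^ (n + 1) = x := fun x hx =>
    rpow_inv_natCast_pow hx (by omega)
  set γ := volume.real (slice D 0)
  have hγ0 : 0 < γ := hδ0.trans hcon
  set g := γ ^ e
  set d' := δ ^ e
  have hgd : d' < g := rpow_lt_rpow hδ0.le hcon he0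
  have hd0 : 0 < d' := rpow_pos_of_pos hδ0 e
  set g' := (g + d') / 2 with hg'
  set lam := g' / g with hlam
  have hg0 : 0 < g := hd0.trans hgd
  have hlam0 : 0 ≤ lam := by positivity
  have hlam1 : lam ≤ 1 := (div_le_one hg0).2 (by linarith)
  set w := (1 - lam) * x0
  have hw0 : 0 < w := mul_pos (sub_pos.2 ((div_lt_one hg0).2 (by linarith))) hh
  set η := g' ^ (n + 1) / δ - 1
  have hη0 : 0 < η := by
    have := pow_lt_pow_left₀ (by linarith : d' < g') hd0.le (by omega : n + 1 ≠ 0)
    rw [hpow _ hδ0.le] at this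
    exact sub_pos.2 ((one_lt_div hδ0).2 this)
  have hwd : g' ^ (n + 1) ≤ volume.real (slice D w) := by
    have hb' := bm (n := n + 1) (by omega) (slice_convex hDv 0) (slice_isCompact hDc 0)
      (slice_nonempty_of_pos hγ0) (slice_convex hDv x0) (slice_isCompact hDc x0) hne
      (slice_convex hDv w) (slice_isCompact hDc w) hlam0 (sub_nonneg.2 hlam1) (by ring)
      (by
        intro z hz z' hz'
        have := hDv hz hz' hlam0 (sub_nonneg.2 hlam1) (by ring)
        rw [smul_cons, smul_cons, cons_add, mul_zero, zero_add] at this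
        exact this)
    have : g' ≤ volume.real (slice D w) ^ e := by
      refine le_trans (le_of_eq ?_) ((le_add_of_nonneg_right ?_).trans hb')
      · rw [hlam, div_mul_cancel₀ _ hg0.ne']
      · exact mul_nonneg (sub_nonneg.2 hlam1) (rpow_nonneg measureReal_nonneg _)
    have := pow_le_pow_left₀ (by positivity) this (n + 1)
    rwa [hpow _ measureReal_nonneg] at this
  refine ⟨η, w, hη0, hw0, le_trans (le_of_eq ?_) hwd⟩
  simp only [η, add_sub_cancel, div_mul_cancel₀ _ hδ0.ne']

/-- Equality in Brunn–Minkowski makes the central sections critical. -/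
lemma central_step {A B : Set (E (n + 1 + 1))} (hA : IsBody A) (hB : IsBody B)
    (hAs : ∀ x ∈ A, -x ∈ A) (hBs : ∀ x ∈ B, -x ∈ B) (hv : volume.real A = volume.real B)
    (heq : volume.real (A + B) ≤ 2 ^ (n + 1 + 1) * volume.real A) :
    IsBody (slice A 0) ∧ IsBody (slice B 0) ∧ volume.real (slice A 0) = volume.real (slice B 0) ∧
      volume.real (slice A 0 + slice B 0) ≤ 2 ^ (n + 1) * volume.real (slice A 0) := by
  set V := volume.real A with hV
  have hV0 : 0 < V := hA.volume_pos
  have hne0 : ∀ C : Set (E (n + 1 + 1)), IsBody C → (∀ x ∈ C, -x ∈ C) →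
      0 < volume.real (slice C 0) ∧ ∀ t, volume.real (slice C t) ≤ volume.real (slice C 0) := by
    intro C hC hCs
    have hle : ∀ t, volume.real (slice C t) ≤ volume.real (slice C 0) := fun t => by
      rcases eq_empty_or_nonempty (slice C t) with h | h
      · simp [h]
      · exact slice_le_of_abs_le hC.compact hC.convex hCs (by simp) h
    refine ⟨?_, hle⟩
    by_contra hcon
    have hz : ∀ t, volume (slice C t) = 0 := fun t => by
      have := le_antisymm ((hle t).trans (not_lt.1 hcon)) measureReal_nonneg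
      rwa [measureReal_eq_zero_iff (slice_isCompact hC.compact t).measure_lt_top.ne] at this
    have := hC.volume_pos
    rw [measureReal_def, volume_eq_lintegral_slice hC.compact.measurableSet] at this
    simp [hz] at this
  obtain ⟨hα0, hαmax⟩ := hne0 A hA hAs
  obtain ⟨hβ0, hβmax⟩ := hne0 B hB hBs
  set α := volume.real (slice A 0)
  set β := volume.real (slice B 0)
  set e : ℝ := (((n + 1 : ℕ):ℝ)⁻¹) with he
  have he0 : 0 < e := by positivity
  set D := A + B with hD
  have hDc : IsCompact D := hA.compact.add hB.compact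
  have hDv : Convex ℝ D := hA.convex.add hB.convex
  have hDs := neg_mem_add hAs hBs
  have hsub : ∀ s t, slice A s + slice B t ⊆ slice D (s + t) := by
    rintro s t _ ⟨x, hx, y, hy, rfl⟩
    exact ⟨cons s x, hx, cons t y, hy, cons_add s t x y⟩
  have hbm : ∀ s t, 0 < volume.real (slice A s) → 0 < volume.real (slice B t) →
      volume.real (slice A s) ^ e + volume.real (slice B t) ^ e ≤
        volume.real (slice D (s + t)) ^ e := fun s t hs ht =>
    (bm_add (by omega) (slice_convex hA.convex s) (slice_isCompact hA.compact s)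
      (slice_nonempty_of_pos hs) (slice_convex hB.convex t) (slice_isCompact hB.compact t)
      (slice_nonempty_of_pos ht)).trans (rpow_le_rpow measureReal_nonneg
        (measureReal_mono (hsub s t) (slice_isCompact hDc _).measure_lt_top.ne) he0.le)
  set a := α ^ e
  set b := β ^ e
  have ha0 : 0 < a := rpow_pos_of_pos hα0 e
  have hb0 : 0 < b := rpow_pos_of_pos hβ0 e
  set δ := (a + b) ^ (n + 1)
  have hδ0 : 0 < δ := pow_pos (add_pos ha0 hb0) _
  have hpow : ∀ x : ℝ, 0 ≤ x → (x ^ e) ^ (n + 1) = x := fun x hx =>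
    rpow_inv_natCast_pow hx (by omega)
  set γ := volume.real (slice D 0)
  have hδγ : δ ≤ γ := by
    have := pow_le_pow_left₀ (by positivity) (hbm 0 0 hα0 hβ0) (n + 1)
    rw [hpow _ measureReal_nonneg, add_zero] at this
    exact this
  have hγmax : ∀ t, volume.real (slice D t) ≤ γ := fun t => by
    rcases eq_empty_or_nonempty (slice D t) with h | h
    · simp [h, γ]
    · exact slice_le_of_abs_le hDc hDv hDs (by simp) h
  have hextra : ∀ η w : ℝ, 0 ≤ η → 0 ≤ w → (0 < η → ∀ θ ∈ Ioo 1 (1 + η),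
      ENNReal.ofReal w ≤ volume {t : ℝ | θ < volume.real (slice D t) / δ}) →
      (V / α + V / β) + w * η ≤ volume.real D / δ := by
    intro η w hη hw hU
    have := layer_bound (δ := δ) hA hB hAs hBs hDc hDv hDs he0 hα0 hβ0 hδ0 rfl rfl rfl hαmax hβmax
      rfl rfl hpow hbm hη hw hU
    rwa [← hv] at this
  have hbase := hextra 0 0 le_rfl le_rfl (fun h => absurd h (lt_irrefl 0))
  have hD' : volume.real D / δ ≤ 2 ^ (n + 1 + 1) * V / δ := div_le_div_of_nonneg_right heq hδ0.le
  have hαa : α = a ^ (n + 1) := (hpow α hα0.le).symm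
  have hβb : β = b ^ (n + 1) := (hpow β hβ0.le).symm
  have hsum' : 1 / α + 1 / β ≤ 2 ^ (n + 1 + 1) / δ := by
    refine le_of_mul_le_mul_left ?_ hV0
    refine le_trans (le_of_eq ?_) ((hbase.trans hD').trans_eq ?_) <;> ring
  have hab : a = b := by
    by_contra hne
    have h := strict_convex_neg_pow n ha0 hb0 hne
    rw [← hαa, ← hβb] at h
    exact absurd (pow_le_pow_left₀ (by positivity) hsum' 2) (not_le.2 h)
  have hαβ : α = β := by rw [hαa, hβb, hab]
  have hδα : δ = 2 ^ (n + 1) * α := by
    rw [hαa]; simp only [δ, ← hab, ← two_mul, mul_pow]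
  have hγδ : γ ≤ δ := by
    by_contra hcon
    push Not at hcon
    obtain ⟨x0, hx0⟩ : ∃ t : ℝ, 0 < t ∧ (slice D t).Nonempty := by
      obtain ⟨z, hz⟩ := (hA.nonempty)
      obtain ⟨r, hr, hball⟩ := Metric.isOpen_iff.1 isOpen_interior 0
        (show (0 : E (n + 1 + 1)) ∈ interior A from by
          refine zero_mem_of_symm hA.convex.interior (fun x hx => ?_) hA.nonempty
          have hneg : -A = A := by
            ext y; exact ⟨fun hy => by simpa using hAs _ hy, fun hy => hAs y hy⟩
          rw [← hneg]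
          exact mem_interior.2 ⟨-interior A, neg_subset_neg.2 interior_subset,
            isOpen_interior.neg, by simpa using hx⟩)
      have h0B : (0 : E (n + 1 + 1)) ∈ B :=
        zero_mem_of_symm hB.convex hBs (hB.nonempty.mono interior_subset)
      refine ⟨r / 2, half_pos hr, 0, cons (r / 2) 0, interior_subset (hball ?_), 0, h0B, by simp⟩
      rw [mem_ball_zero_iff, norm_eq_sqrt_real_inner, inner_cons]
      simp [Real.sqrt_mul_self (half_pos hr).le, hr]
    obtain ⟨η, w, hη0, hw0, hwd⟩ := lift_level hDc hDv hδ0 hx0.1 hx0.2 hcon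
    have := hextra η (2 * w) hη0.le (by positivity) fun _ θ hθ => by
      have hsub' : Icc (-w) w ⊆ {t : ℝ | θ < volume.real (slice D t) / δ} := fun t ht => by
        have hne' : (slice D w).Nonempty := slice_nonempty_of_pos (by nlinarith)
        have hle := slice_le_of_abs_le hDc hDv hDs
          (show |t| ≤ |w| by rw [abs_of_pos hw0]; exact abs_le.2 ht) hne'
        show θ < _ / δ
        rw [lt_div_iff₀ hδ0]
        calc θ * δ < (1 + η) * δ := mul_lt_mul_of_pos_right hθ.2 hδ0
          _ ≤ _ := hwd.trans hle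
      refine le_trans (le_of_eq ?_) (measure_mono hsub')
      rw [Real.volume_Icc]; congr 1; ring
    have hval : V / α + V / β = 2 ^ (n + 1 + 1) * V / δ := by
      rw [← hαβ, hδα]
      field_simp
      ring
    nlinarith [this, hD', hval, mul_pos hw0 hη0]
  refine ⟨isBody_of_pos (slice_isCompact hA.compact 0) (slice_convex hA.convex 0) hα0,
    isBody_of_pos (slice_isCompact hB.compact 0) (slice_convex hB.convex 0) hβ0, hαβ, ?_⟩
  refine le_trans ?_ (hγδ.trans_eq hδα)
  exact measureReal_mono (by simpa using hsub 0 0) (slice_isCompact hDc 0).measure_lt_top.ne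

/-- Equality in Brunn–Minkowski for origin-symmetric bodies of equal volume. -/
theorem bm_eq_symm : ∀ {n : ℕ} {A B : Set (E (n + 1))}, IsBody A → IsBody B →
    (∀ x ∈ A, -x ∈ A) → (∀ x ∈ B, -x ∈ B) → volume.real A = volume.real B →
    volume.real (A + B) ≤ 2 ^ (n + 1) * volume.real A → A = B
  | 0, A, B, hA, hB, hAs, hBs, hv, _ => eq_one hA hB hAs hBs hv
  | n + 1, A, B, hA, hB, hAs, hBs, hv, heq => by
    have main : ∀ (v : E (n + 1 + 1)), ‖v‖ = 1 → ∀ x, ⟪x, v⟫ = 0 → (x ∈ A ↔ x ∈ B) := by
      intro v hv' x hx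
      obtain ⟨L, hL⟩ := exists_frame hv'
      have hsy : ∀ C : Set (E (n + 1 + 1)), (∀ y ∈ C, -y ∈ C) → ∀ y ∈ L '' C, -y ∈ L '' C := by
        rintro C hC _ ⟨y, hy, rfl⟩; exact ⟨-y, hC y hy, map_neg L y⟩
      have hbd : ∀ C : Set (E (n + 1 + 1)), IsBody C → IsBody (L '' C) := fun C hC =>
        isBody_of_pos (hC.compact.image L.continuous)
          (hC.convex.linear_image L.toLinearEquiv.toLinearMap)
          (by rw [volume_real_image]; exact hC.volume_pos)
      have himg : L '' A + L '' B = L '' (A + B) :=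
        (Set.image_add L).symm
      obtain ⟨h1, h2, h3, h4⟩ := central_step (hbd A hA) (hbd B hB) (hsy A hAs) (hsy B hBs)
        (by rw [volume_real_image, volume_real_image, hv])
        (by rw [himg, volume_real_image, volume_real_image]; exact heq)
      have hss : ∀ C : Set (E (n + 1 + 1)), (∀ y ∈ C, -y ∈ C) →
          ∀ y ∈ slice (L '' C) 0, -y ∈ slice (L '' C) 0 := by
        intro C hC y hy
        have := hsy C hC _ hy
        rwa [← neg_one_smul ℝ (cons _ _), smul_cons, mul_zero, neg_one_smul] at this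
      have heq0 := bm_eq_symm h1 h2 (hss A hAs) (hss B hBs) h3 h4
      have hhd : hd (L x) = 0 := by rw [exists_isometry_slice hL]; exact hx
      have key : ∀ C : Set (E (n + 1 + 1)), x ∈ C ↔ tl (L x) ∈ slice (L '' C) 0 := fun C => by
        show _ ↔ cons 0 (tl (L x)) ∈ L '' C
        rw [← hhd, cons_hd_tl, L.injective.mem_set_image]
      rw [key A, key B, heq0]
    have hperp : ∀ x : E (n + 1 + 1), ∃ v : E (n + 1 + 1), ‖v‖ = 1 ∧ ⟪x, v⟫ = 0 := by
      intro x
      rcases eq_or_ne x 0 with rfl | hx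
      · exact ⟨e0, by simp [e0], by simp⟩
      · have : Fact (Module.finrank ℝ (E (n + 1 + 1)) = n + 1 + 1) := ⟨finrank_euclideanSpace_fin⟩
        have hf : Module.finrank ℝ (ℝ ∙ x)ᗮ = n + 1 := Submodule.finrank_orthogonal_span_singleton hx
        have : Nontrivial (ℝ ∙ x)ᗮ := Module.nontrivial_of_finrank_pos (R := ℝ) (by omega)
        obtain ⟨⟨v, hv'⟩, hne⟩ := exists_ne (0 : (ℝ ∙ x)ᗮ)
        have hv0 : v ≠ 0 := fun h => hne (Subtype.ext h)
        refine ⟨‖v‖⁻¹ • v, norm_smul_inv_norm hv0, ?_⟩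
        rw [real_inner_smul_right, Submodule.mem_orthogonal_singleton_iff_inner_right.1 hv', mul_zero]
    ext x
    obtain ⟨v, hv', hxv⟩ := hperp x
    exact main v hv' x hxv

end Vale.Agent.P237.Sharp
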