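import Mathlib
import Vale.Agent.P237.Main

/-!
# P237, sharp route: the normalised projection volume and its minimisers
-/

open MeasureTheory Set Real Filter Topology
open scoped Pointwise RealInnerProductSpace

namespace Vale.Agent.P237.Sharp

variable {n : ℕ}

/-- `|ΠK| / |K|^n` in dimension `n + 1`. -/
noncomputable def ratio (K : Set (E (n + 1))) : ℝ :=
  volume.real (projBody K) / volume.real K ^ n

/-- `K` minimises `ratio` among convex bodies. -/
def IsMin (K : Set (E (n + 1))) : Prop :=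
  IsBody K ∧ ∀ L : Set (E (n + 1)), IsBody L → ratio K ≤ ratio L

lemma projBody_pos {K : Set (E (n + 1))} (hK : IsBody K) : 0 < volume.real (projBody K) :=
  (projBody_isBody hK).1.volume_pos

lemma ratio_pos {K : Set (E (n + 1))} (hK : IsBody K) : 0 < ratio K :=
  div_pos (projBody_pos hK) (pow_pos hK.volume_pos n)

lemma le_ratio_iff {K : Set (E (n + 1))} (hK : IsBody K) {c : ℝ} :
    c ≤ ratio K ↔ c * volume.real K ^ n ≤ volume.real (projBody K) :=
  le_div_iff₀ (pow_pos hK.volume_pos n)

lemma volume_real_smul (K : Set (E n)) {r : ℝ} (hr : 0 ≤ r) :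
    volume.real (r • K) = r ^ n * volume.real K := by
  rw [measureReal_def, Measure.addHaar_smul_of_nonneg volume hr, ENNReal.toReal_mul,
    ENNReal.toReal_ofReal (by positivity), finrank_euclideanSpace_fin]
  rfl

lemma isBody_smul {K : Set (E n)} (hK : IsBody K) {r : ℝ} (hr : 0 < r) : IsBody (r • K) :=
  ⟨hK.compact.smul r, hK.convex.smul r, by
    rw [interior_smul₀ hr.ne']; exact hK.nonempty.smul_set⟩

/-- Monotonicity of the projection body up to a scale. -/
lemma projBody_subset_smul {P K : Set (E (n + 1))} (hK : IsCompact K) {r : ℝ} (hr : 0 < r)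
    (hP : P ⊆ r • K) : projBody P ⊆ r ^ n • projBody K := by
  intro x hx
  rw [mem_smul_set_iff_inv_smul_mem₀ (pow_ne_zero n hr.ne')]
  intro u hu
  rw [real_inner_smul_left, inv_mul_le_iff₀ (pow_pos hr n)]
  refine (hx u hu).trans ((projArea_mono (hK.smul _) hP u).trans_eq ?_)
  exact projArea_smul K hu hr.le

lemma projBody_smul {K : Set (E (n + 1))} (hK : IsCompact K) {r : ℝ} (hr : 0 < r) :
    projBody (r • K) = r ^ n • projBody K := by
  refine Subset.antisymm (projBody_subset_smul hK hr Subset.rfl) ?_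
  rintro _ ⟨x, hx, rfl⟩ u hu
  rw [projArea_smul K hu hr.le, real_inner_smul_left]
  exact mul_le_mul_of_nonneg_left (hx u hu) (by positivity)

/-- Translation invariance of the projection body. -/
lemma projBody_translate (K : Set (E (n + 1))) (z : E (n + 1)) :
    projBody ((fun x => z + x) '' K) = projBody K := by
  ext x
  simp only [projBody, mem_ofPred_eq]
  exact forall_congr' fun u => forall_congr' fun hu => by rw [projArea_vadd K hu z]

lemma ratio_smul {K : Set (E (n + 1))} (hK : IsCompact K) {r : ℝ} (hr : 0 < r) :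
    ratio (r • K) = ratio K := by
  rw [ratio, ratio, projBody_smul hK hr, volume_real_smul _ (by positivity),
    volume_real_smul _ hr.le, mul_pow, ← pow_mul, ← pow_mul, mul_comm n (n + 1),
    mul_div_mul_left _ _ (pow_ne_zero _ hr.ne')]

lemma ratio_translate (K : Set (E (n + 1))) (z : E (n + 1)) :
    ratio ((fun x => z + x) '' K) = ratio K := by
  have hv : volume.real ((fun x => z + x) '' K) = volume.real K := by
    rw [image_add_left, measureReal_def, measure_preimage_add, ← measureReal_def]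
  rw [ratio, ratio, projBody_translate, hv]

/-- A body at least as good as every origin-symmetric body is a minimiser. -/
lemma isMin_of_symm {K : Set (E (n + 1))} (hK : IsBody K)
    (h : ∀ L : Set (E (n + 1)), IsBody L → (∀ x ∈ L, -x ∈ L) → ratio K ≤ ratio L) : IsMin K := by
  refine ⟨hK, fun L hL => (le_ratio_iff hL).2 ?_⟩
  simpa using class_step (c := ratio K) (fun Z hZ hs => (le_ratio_iff hZ).1 (h Z hZ hs))
    (ratio_pos hK).le L hL

/-- A polyhedral sandwich of a body, with its supergradient. -/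
lemma exists_sandwich {K : Set (E (n + 1))} (hK : IsBody K) (h0 : (0 : E (n + 1)) ∈ interior K)
    {δ : ℝ} (hδ : 0 < δ) :
    ∃ (ι : Type) (_ : Fintype ι) (nrm : ι → E (n + 1)) (q : ι → ℝ),
      (∀ h, Bornology.IsBounded (poly nrm h)) ∧ (∀ i, 0 ≤ q i) ∧
      ∑ i, q i = rootVol nrm (fun _ => 1) ∧
      (∀ h : ι → ℝ, (∀ i, 0 ≤ h i) → rootVol nrm h ≤ ∑ i, q i * h i) ∧
      K ⊆ poly nrm (fun _ => 1) ∧ poly nrm (fun _ => 1) ⊆ (1 + δ) • K := by
  obtain ⟨ι, _, nrm, hb, hKP, hPK⟩ := exists_poly hK.compact hK.convex h0 hδ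
  obtain ⟨q, hq0, hq1, hq⟩ := exists_supergradient hb
  exact ⟨ι, inferInstance, nrm, q, hb, hq0, hq1, hq, hKP, hPK⟩

lemma zero_mem_interior {K : Set (E n)} (hK : IsBody K) (hsym : ∀ x ∈ K, -x ∈ K) :
    (0 : E n) ∈ interior K := by
  refine zero_mem_of_symm hK.convex.interior (fun x hx => ?_) hK.nonempty
  have hneg : -K = K := by
    ext y; exact ⟨fun hy => by simpa using hsym _ hy, fun hy => hsym y hy⟩
  rw [← hneg]
  exact mem_interior.2 ⟨-interior K, neg_subset_neg.2 interior_subset,
    isOpen_interior.neg, by simpa using hx⟩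

/-- Slices bound the shadow of `ΠK` from below. -/
theorem shadow_core_gen {c : ℝ} (hc : 0 ≤ c)
    (IH : ∀ Q : Set (E (n + 1)), IsBody Q → c * volume.real Q ^ n ≤ volume.real (projBody Q))
    {K : Set (E (n + 1 + 1))} (hK : IsBody K) (hsym : ∀ x ∈ K, -x ∈ K)
    {v : E (n + 1 + 1)} (hv : ‖v‖ = 1)
    (L : E (n + 1 + 1) ≃ₗᵢ[ℝ] E (n + 1 + 1)) (hL : L v = e0) :
    c * (2 * ∫ t in (0:ℝ)..supp K v,
        (volume.real (slice (L '' K) t) ^ (((n + 1 : ℕ):ℝ)⁻¹)) ^ n) ^ (n + 1) ≤
      projArea (projBody K) v := by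
  set A := c * (2 * ∫ t in (0:ℝ)..supp K v,
        (volume.real (slice (L '' K) t) ^ (((n + 1 : ℕ):ℝ)⁻¹)) ^ n) ^ (n + 1) with hA
  have hlim : Tendsto (fun δ : ℝ => ((1 + δ) ^ (n + 1)) ^ (n + 1) * projArea (projBody K) v)
      (𝓝[>] 0) (𝓝 (projArea (projBody K) v)) := by
    have hcont : Continuous fun δ : ℝ =>
        ((1 + δ) ^ (n + 1)) ^ (n + 1) * projArea (projBody K) v := by fun_prop
    simpa using (hcont.tendsto 0).mono_left nhdsWithin_le_nhds
  refine ge_of_tendsto hlim ?_
  filter_upwards [self_mem_nhdsWithin] with δ hδ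
  have hδ0 : (0:ℝ) < δ := hδ
  obtain ⟨ι, _, nrm, q, hb, hq0, hq1, hq, hKP, hPK⟩ :=
    exists_sandwich hK (zero_mem_interior hK hsym) hδ0
  refine (shadow_core hc IH hK hsym (poly_isCompact hb _) hKP
    (fun u hu => projArea_poly hb hq1 hq hu) hv L hL).trans ?_
  refine (projArea_mono ((projBody_isCompact K).smul _)
    (projBody_subset_smul hK.compact (by linarith) hPK) v).trans_eq ?_
  exact projArea_smul _ hv (by positivity)

end Vale.Agent.P237.Sharp
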