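import Mathlib
import Vale.Agent.P237.Sharp.Defs
import Vale.Agent.P237.Sharp.BMEq

/-!
# P237, sharp route: a symmetric minimiser is fixed by `Π²` up to scale
-/

open MeasureTheory Set Real Filter Topology
open scoped Pointwise RealInnerProductSpace

namespace Vale.Agent.P237.Sharp

variable {n : ℕ}

/-- The support function of a projection body is the projection area. -/
lemma supp_projBody {K : Set (E (n + 1))} (hK : IsBody K) (hsym : ∀ x ∈ K, -x ∈ K)
    {v : E (n + 1)} (hv : ‖v‖ = 1) : supp (projBody K) v = projArea K v := by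
  refine le_antisymm (csSup_le ((Set.nonempty_of_mem (zero_mem_projBody K)).image _) ?_) ?_
  · rintro _ ⟨x, hx, rfl⟩
    exact hx v hv
  · have hlim : Tendsto (fun δ : ℝ => (1 + δ) ^ n * supp (projBody K) v) (𝓝[>] 0)
        (𝓝 (supp (projBody K) v)) := by
      have hc : Continuous fun δ : ℝ => (1 + δ) ^ n * supp (projBody K) v := by fun_prop
      simpa using (hc.tendsto 0).mono_left nhdsWithin_le_nhds
    refine ge_of_tendsto hlim ?_
    filter_upwards [self_mem_nhdsWithin] with δ hδ
    have hδ0 : (0:ℝ) < δ := hδ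
    obtain ⟨ι, _, nrm, q, hb, hq0, hq1, hq, hKP, hPK⟩ :=
      exists_sandwich hK (zero_mem_interior hK hsym) hδ0
    set P := poly nrm fun _ => 1
    set a := atom nrm q
    have hPa : ∀ u : E (n + 1), ‖u‖ = 1 → projArea P u = (∑ i, |⟪u, a i⟫|) / 2 :=
      fun u hu => projArea_poly hb hq1 hq hu
    set x := (2⁻¹ : ℝ) • ∑ i, (if 0 ≤ ⟪v, a i⟫ then (1:ℝ) else -1) • a i with hx
    have hxP : x ∈ projBody P := by
      intro u hu
      rw [hPa u hu, hx, real_inner_smul_left, sum_inner, inv_mul_eq_div]
      refine div_le_div_of_nonneg_right (Finset.sum_le_sum fun i _ => ?_) zero_le_two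
      rw [real_inner_smul_left]
      split_ifs
      · simpa [real_inner_comm] using le_abs_self ⟪u, a i⟫
      · simpa [real_inner_comm] using neg_le_abs ⟪u, a i⟫
    have hxv : ⟪x, v⟫ = projArea P v := by
      rw [hPa v hv, hx, real_inner_smul_left, sum_inner, inv_mul_eq_div]
      congr 1
      refine Finset.sum_congr rfl fun i _ => ?_
      rw [real_inner_smul_left, real_inner_comm]
      split_ifs with h
      · rw [abs_of_nonneg h, one_mul]
      · rw [abs_of_neg (not_le.1 h), neg_one_mul]
    refine (projArea_mono (poly_isCompact hb _) hKP v).trans (hxv.symm.trans_le ?_)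
    obtain ⟨y, hy, hxy⟩ := projBody_subset_smul hK.compact (by linarith : (0:ℝ) < 1 + δ) hPK hxP
    rw [← hxy]
    show ⟪(1 + δ) ^ n • y, v⟫ ≤ _
    rw [real_inner_smul_left]
    exact mul_le_mul_of_nonneg_left (le_supp (projBody_isCompact K) v hy) (by positivity)

lemma supp_smul (K : Set (E n)) {r : ℝ} (hr : 0 ≤ r) (v : E n) :
    supp (r • K) v = r * supp K v := by
  have e : (fun x : E n => ⟪x, v⟫) '' (r • K) = r • ((fun x => ⟪x, v⟫) '' K) := by
    rw [← image_smul, ← image_smul, image_image, image_image]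
    exact image_congr fun x _ => by simp [real_inner_smul_left]
  rw [supp, e, Real.sSup_smul_of_nonneg hr, smul_eq_mul]; rfl

/-- First variation at a minimiser: equality in Brunn–Minkowski for `K` and a multiple of `Π(ΠK)`. -/
theorem isMin_equality {K : Set (E (n + 1))} (hK : IsMin K) (h0 : (0 : E (n + 1)) ∈ interior K) :
    IsBody ((volume.real K / volume.real (projBody K)) • projBody (projBody K)) ∧
      (∀ x ∈ (volume.real K / volume.real (projBody K)) • projBody (projBody K),
        -x ∈ (volume.real K / volume.real (projBody K)) • projBody (projBody K)) ∧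
      volume.real K =
        volume.real ((volume.real K / volume.real (projBody K)) • projBody (projBody K)) ∧
      volume.real (K + (volume.real K / volume.real (projBody K)) • projBody (projBody K)) ≤
        2 ^ (n + 1) * volume.real K := by
  obtain ⟨hKb, hmin⟩ := hK
  set Z := projBody K with hZdef
  set M := projBody Z with hMdef
  obtain ⟨hZ, hZs⟩ := projBody_isBody hKb
  obtain ⟨hM, hMs⟩ := projBody_isBody hZ
  set V := volume.real K with hVdef
  set T := volume.real Z with hTdef
  have hV0 : 0 < V := hKb.volume_pos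
  have hT0 : 0 < T := hZ.volume_pos
  set ε := V / T with hεdef
  have hε : 0 < ε := div_pos hV0 hT0
  set e : ℝ := (((n + 1 : ℕ):ℝ)⁻¹) with he
  have he0 : 0 < e := by positivity
  set ρ := V ^ e with hρ
  have hρ0 : 0 < ρ := rpow_pos_of_pos hV0 _
  have hρm : ρ ^ (n + 1) = V := rpow_inv_natCast_pow hV0.le (by omega)
  set W := volume.real (K + ε • M)
  have hKM : IsCompact (K + ε • M) := hKb.compact.add (hM.compact.smul ε)
  -- first variation, upper bound
  have hupper : W ^ e * ρ ^ n ≤ 2 * V := by
    have hlim : Tendsto (fun δ : ℝ => V * (1 + δ) ^ (n + 1) + V * ((1 + δ) ^ n) ^ (n + 1))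
        (𝓝[>] 0) (𝓝 (2 * V)) := by
      have hc : Continuous fun δ : ℝ => V * (1 + δ) ^ (n + 1) + V * ((1 + δ) ^ n) ^ (n + 1) := by
        fun_prop
      simpa [two_mul] using (hc.tendsto 0).mono_left nhdsWithin_le_nhds
    refine ge_of_tendsto hlim ?_
    filter_upwards [self_mem_nhdsWithin] with δ hδ
    have hδ0 : (0:ℝ) < δ := hδ
    obtain ⟨ι, _, nrm, q, hb, hq0, hq1, hq, hKP, hPK⟩ :=
      exists_sandwich hKb (h0) hδ0
    set P := poly nrm fun _ => 1
    set ZP := projBody P
    set a := atom nrm q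
    have hPa : ∀ u : E (n + 1), ‖u‖ = 1 → projArea P u = (∑ i, |⟪u, a i⟫|) / 2 :=
      fun u hu => projArea_poly hb hq1 hq hu
    set X := rootVol nrm fun _ => 1 with hX
    have hX0 : 0 ≤ X := rpow_nonneg measureReal_nonneg _
    set h : ι → ℝ := fun i => ‖nrm i‖ * projArea ZP (‖nrm i‖⁻¹ • nrm i) with hh
    have h0 : ∀ i, 0 ≤ h i := fun i => mul_nonneg (norm_nonneg _) (projArea_nonneg _ _)
    have hMZ : M ⊆ projBody ZP :=
      projBody_mono (projBody_isCompact P) (projBody_mono (poly_isCompact hb _) hKP)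
    have hsub : K + ε • M ⊆ poly nrm fun i => 1 + ε * h i := by
      rintro _ ⟨x, hx, _, ⟨y, hy, rfl⟩, rfl⟩ i
      rw [inner_add_right, real_inner_smul_right]
      refine add_le_add (hKP hx i) (mul_le_mul_of_nonneg_left ?_ hε.le)
      rcases eq_or_ne (nrm i) 0 with hn | hn
      · simp [hh, hn]
      · have hyu := hMZ hy (‖nrm i‖⁻¹ • nrm i) (norm_smul_inv_norm hn)
        rw [real_inner_smul_right, inv_mul_le_iff₀ (norm_pos_iff.2 hn)] at hyu
        rw [real_inner_comm]; exact hyu
    have s1 : W ^ e ≤ X + ε * ∑ i, q i * h i := by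
      have h1 := hq (fun i => 1 + ε * h i) fun i => by have := h0 i; positivity
      have h2 : ∑ i, q i * (1 + ε * h i) = X + ε * ∑ i, q i * h i := by
        rw [Finset.mul_sum, ← hq1, ← Finset.sum_add_distrib]
        exact Finset.sum_congr rfl fun i _ => by ring
      exact (rpow_le_rpow measureReal_nonneg
        (measureReal_mono hsub (poly_isCompact hb _).measure_lt_top.ne) he0.le).trans
        (h1.trans_eq h2)
    have hterm : ∀ i, (((n:ℝ) + 1) * X ^ n) * (q i * h i) =
        ‖a i‖ * projArea ZP (‖a i‖⁻¹ • a i) := by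
      intro i
      have hai : a i = ((((n:ℝ) + 1) * X ^ n) * q i) • nrm i := rfl
      have hC0 : 0 ≤ (((n:ℝ) + 1) * X ^ n) * q i := by have := hq0 i; positivity
      have hna : ‖a i‖ = (((n:ℝ) + 1) * X ^ n) * q i * ‖nrm i‖ := by
        rw [hai, norm_smul, Real.norm_of_nonneg hC0]
      rcases eq_or_ne (a i) 0 with ha0 | ha0
      · rw [ha0, norm_zero, zero_mul, ← mul_assoc, hh]
        rw [ha0, norm_zero] at hna
        simp only [← mul_assoc]
        rw [← hna, zero_mul]
      · have hpos : 0 < (((n:ℝ) + 1) * X ^ n) * q i :=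
          lt_of_le_of_ne hC0 fun h' => ha0 (by rw [hai, ← h', zero_smul])
        have hdir : ‖a i‖⁻¹ • a i = ‖nrm i‖⁻¹ • nrm i := by
          rw [hna, hai, smul_smul, mul_inv_rev, mul_assoc, inv_mul_cancel₀ hpos.ne', mul_one]
        rw [hdir, hna, hh]; ring
    have hsum := sum_atom_projArea_le hPa
    rw [← Finset.sum_congr rfl (fun i _ => hterm i), ← Finset.mul_sum, mul_assoc] at hsum
    have s2 : X ^ n * ∑ i, q i * h i ≤ volume.real ZP :=
      le_of_mul_le_mul_left hsum (by positivity)
    have hXρ : ρ ≤ X := rootVol_one_ge hb hKP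
    have hXP : X ^ (n + 1) ≤ V * (1 + δ) ^ (n + 1) := by
      rw [hX, rootVol_pow, mul_comm, ← volume_real_smul K (by linarith)]
      exact measureReal_mono hPK (hKb.compact.smul _).measure_lt_top.ne
    have hZP : volume.real ZP ≤ ((1 + δ) ^ n) ^ (n + 1) * T := by
      rw [← volume_real_smul Z (by positivity)]
      exact measureReal_mono (projBody_subset_smul hKb.compact (by linarith) hPK)
        (hZ.compact.smul _).measure_lt_top.ne
    calc W ^ e * ρ ^ n ≤ (X + ε * ∑ i, q i * h i) * X ^ n :=
          mul_le_mul s1 (pow_le_pow_left₀ hρ0.le hXρ n) (by positivity)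
            ((rpow_nonneg measureReal_nonneg e).trans s1)
      _ = X ^ (n + 1) + ε * (X ^ n * ∑ i, q i * h i) := by ring
      _ ≤ V * (1 + δ) ^ (n + 1) + ε * (((1 + δ) ^ n) ^ (n + 1) * T) :=
          add_le_add hXP (mul_le_mul_of_nonneg_left (s2.trans hZP) hε.le)
      _ = _ := by rw [hεdef]; field_simp
  -- minimality
  have hlow : V ≤ volume.real (ε • M) := by
    have h1 : T / V ^ n ≤ volume.real M / T ^ n := hmin Z hZ
    rw [div_le_div_iff₀ (by positivity) (by positivity), ← pow_succ'] at h1
    rw [volume_real_smul M hε.le, hεdef, div_pow, div_mul_eq_mul_div, le_div_iff₀ (by positivity)]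
    calc V * T ^ (n + 1) ≤ V * (volume.real M * V ^ n) := mul_le_mul_of_nonneg_left h1 hV0.le
      _ = _ := by ring
  have hbm := bm_add (n := n + 1) (by omega) hKb.convex hKb.compact
    (hKb.nonempty.mono interior_subset) (hM.convex.smul ε) (hM.compact.smul ε)
    ((Set.nonempty_of_mem (zero_mem_projBody Z)).smul_set)
  rw [← he, ← hρ] at hbm
  have hW2 : W ^ e ≤ 2 * ρ := by
    refine le_of_mul_le_mul_right (hupper.trans_eq ?_) (pow_pos hρ0 n)
    rw [← hρm]; ring
  have hle : volume.real (ε • M) ≤ V := by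
    have := pow_le_pow_left₀ (rpow_nonneg measureReal_nonneg e)
      (by linarith : volume.real (ε • M) ^ e ≤ ρ) (n + 1)
    rwa [rpow_inv_natCast_pow measureReal_nonneg (by omega), hρm] at this
  have hfin : W ≤ 2 ^ (n + 1) * V := by
    have := pow_le_pow_left₀ (rpow_nonneg measureReal_nonneg e) hW2 (n + 1)
    rwa [rpow_inv_natCast_pow measureReal_nonneg (by omega), mul_pow, hρm] at this
  exact ⟨isBody_smul hM hε, by rintro _ ⟨y, hy, rfl⟩; exact ⟨-y, hMs y hy, by simp⟩,
    le_antisymm hlow hle, hfin⟩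

/-- A symmetric minimiser satisfies `Π(ΠK) = (|ΠK|/|K|) K`. -/
theorem isMin_fixed {K : Set (E (n + 1))} (hK : IsMin K) (hsym : ∀ x ∈ K, -x ∈ K) :
    projBody (projBody K) = (volume.real (projBody K) / volume.real K) • K := by
  obtain ⟨hB, hBs, hv, hle⟩ := isMin_equality hK (zero_mem_interior hK.1 hsym)
  have heq := bm_eq_symm hK.1 hB hsym hBs hv hle
  set T := volume.real (projBody K)
  set V := volume.real K
  have hV0 : 0 < V := hK.1.volume_pos
  have hT0 : 0 < T := (projBody_isBody hK.1).1.volume_pos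
  nth_rewrite 2 [heq]
  have h1 : T / V * (V / T) = 1 := by field_simp
  rw [smul_smul, h1, one_smul]

/-- Along every direction the second projection area of a symmetric minimiser is its width. -/
theorem isMin_projArea {K : Set (E (n + 1))} (hK : IsMin K) (hsym : ∀ x ∈ K, -x ∈ K)
    {v : E (n + 1)} (hv : ‖v‖ = 1) :
    projArea (projBody K) v = volume.real (projBody K) / volume.real K * supp K v := by
  obtain ⟨hZ, hZs⟩ := projBody_isBody hK.1
  rw [← supp_projBody hZ hZs hv, isMin_fixed hK hsym, supp_smul _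
    (div_nonneg measureReal_nonneg measureReal_nonneg)]

end Vale.Agent.P237.Sharp
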