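import Mathlib
import Vale.Agent.P237.Sharp.BMEq

/-!
# P237, sharp route: equality pairs in Brunn–Minkowski, splitting and maximal slices
-/

open MeasureTheory Set Real Filter Topology
open scoped Pointwise RealInnerProductSpace ENNReal

namespace Vale.Agent.P237.Sharp

variable {n : ℕ}

/-- Two convex bodies of equal volume with equality in Brunn–Minkowski. -/
structure EqPair (A B : Set (E (n + 1))) : Prop where
  compA : IsCompact A
  compB : IsCompact B
  convA : Convex ℝ A
  convB : Convex ℝ B
  pos : 0 < volume.real A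
  vol_eq : volume.real A = volume.real B
  sum_le : volume.real (A + B) ≤ 2 ^ (n + 1) * volume.real A

/-- The part below height `s`. -/
def below (C : Set (E (n + 1))) (s : ℝ) : Set (E (n + 1)) := C ∩ {x | hd x ≤ s}

/-- The part above height `s`. -/
def above (C : Set (E (n + 1))) (s : ℝ) : Set (E (n + 1)) := C ∩ {x | s ≤ hd x}

lemma below_isCompact {C : Set (E (n + 1))} (hC : IsCompact C) (s : ℝ) : IsCompact (below C s) :=
  hC.inter_right (isClosed_le hd.continuous continuous_const)

lemma above_isCompact {C : Set (E (n + 1))} (hC : IsCompact C) (s : ℝ) : IsCompact (above C s) :=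
  hC.inter_right (isClosed_le continuous_const hd.continuous)

lemma below_convex {C : Set (E (n + 1))} (hC : Convex ℝ C) (s : ℝ) : Convex ℝ (below C s) :=
  hC.inter (convex_halfSpace_le hd.toLinearMap.isLinear s)

lemma above_convex {C : Set (E (n + 1))} (hC : Convex ℝ C) (s : ℝ) : Convex ℝ (above C s) :=
  hC.inter (convex_halfSpace_ge hd.toLinearMap.isLinear s)

lemma hyperplane_null (s : ℝ) : volume {x : E (n + 1) | hd x = s} = 0 := by
  have hm : MeasurableSet {x : E (n + 1) | hd x = s} :=
    (isClosed_eq hd.continuous continuous_const).measurableSet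
  rw [volume_eq_lintegral_slice hm]
  have hz : ∀ t : ℝ, t ≠ s → volume (slice {x : E (n + 1) | hd x = s} t) = 0 := fun t ht => by
    have : slice {x : E (n + 1) | hd x = s} t = ∅ :=
      eq_empty_iff_forall_notMem.2 fun y hy => ht (by simpa [slice] using hy)
    simp [this]
  have hae : ∀ᵐ t : ℝ, volume (slice {x : E (n + 1) | hd x = s} t) = 0 := by
    filter_upwards [Measure.ae_ne volume s] with t ht using hz t ht
  rw [lintegral_congr_ae hae, lintegral_zero]

lemma volume_below_add_above {C : Set (E (n + 1))} (hC : IsCompact C) (s : ℝ) :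
    volume.real (below C s) + volume.real (above C s) = volume.real C := by
  have hu : below C s ∪ above C s = C := by
    ext x
    simp only [below, above, mem_union, mem_inter_iff, mem_ofPred_eq]
    exact ⟨fun h => h.elim And.left And.left, fun h => (le_total (hd x) s).imp (⟨h, ·⟩) (⟨h, ·⟩)⟩
  have hd0 : AEDisjoint volume (below C s) (above C s) :=
    measure_mono_null (fun x hx => show hd x = s from le_antisymm hx.1.2 hx.2.2) (hyperplane_null s)
  have := measureReal_union₀ (μ := volume) (above_isCompact hC s).measurableSet.nullMeasurableSet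
    hd0 (below_isCompact hC s).measure_lt_top.ne (above_isCompact hC s).measure_lt_top.ne
  rw [hu] at this
  exact this.symm

lemma nonempty_of_vol_pos {m : ℕ} {C : Set (E m)} (h : 0 < volume.real C) : C.Nonempty := by
  by_contra hne
  rw [not_nonempty_iff_eq_empty] at hne
  simp [hne, measureReal_def] at h

lemma bm_two {m : ℕ} {X Y : Set (E (m + 1))} (hXc : IsCompact X) (hYc : IsCompact Y)
    (hX : Convex ℝ X) (hY : Convex ℝ Y) (hpos : 0 < volume.real X)
    (heq : volume.real X = volume.real Y) :
    2 ^ (m + 1) * volume.real X ≤ volume.real (X + Y) := by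
  have h := bm_add (n := m + 1) (by omega) hX hXc (nonempty_of_vol_pos hpos) hY hYc
    (nonempty_of_vol_pos (heq ▸ hpos))
  rw [← heq, ← two_mul] at h
  have h2 := pow_le_pow_left₀ (by positivity) h (m + 1)
  rwa [mul_pow, rpow_inv_natCast_pow measureReal_nonneg (by omega),
    rpow_inv_natCast_pow measureReal_nonneg (by omega)] at h2

/-- Cutting an equality pair at matched heights gives two equality pairs. -/
lemma EqPair.split {A B : Set (E (n + 1))} (h : EqPair A B) {s t : ℝ}
    (hq : volume.real (below A s) = volume.real (below B t))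
    (hb : 0 < volume.real (below A s)) (ha : 0 < volume.real (above A s)) :
    EqPair (below A s) (below B t) ∧ EqPair (above A s) (above B t) := by
  have hA := volume_below_add_above h.compA s
  have hB := volume_below_add_above h.compB t
  have hq' : volume.real (above A s) = volume.real (above B t) := by linarith [h.vol_eq]
  have l1 := bm_two (below_isCompact h.compA s) (below_isCompact h.compB t)
    (below_convex h.convA s) (below_convex h.convB t) hb hq
  have l2 := bm_two (above_isCompact h.compA s) (above_isCompact h.compB t)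
    (above_convex h.convA s) (above_convex h.convB t) ha hq'
  have hD : IsCompact (A + B) := h.compA.add h.compB
  have hs1 : below A s + below B t ⊆ below (A + B) (s + t) := by
    rintro _ ⟨x, hx, y, hy, rfl⟩
    exact ⟨Set.add_mem_add hx.1 hy.1, by show hd (x + y) ≤ _; rw [map_add]; exact add_le_add hx.2 hy.2⟩
  have hs2 : above A s + above B t ⊆ above (A + B) (s + t) := by
    rintro _ ⟨x, hx, y, hy, rfl⟩
    exact ⟨Set.add_mem_add hx.1 hy.1, by show _ ≤ hd (x + y); rw [map_add]; exact add_le_add hx.2 hy.2⟩
  have u1 := measureReal_mono (μ := volume) hs1 (below_isCompact hD _).measure_lt_top.ne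
  have u2 := measureReal_mono (μ := volume) hs2 (above_isCompact hD _).measure_lt_top.ne
  have hsum := volume_below_add_above hD (s + t)
  have htot : (2:ℝ) ^ (n + 1) * volume.real (below A s) + 2 ^ (n + 1) * volume.real (above A s) =
      2 ^ (n + 1) * volume.real A := by rw [← mul_add, hA]
  have := h.sum_le
  exact ⟨⟨below_isCompact h.compA s, below_isCompact h.compB t, below_convex h.convA s,
      below_convex h.convB t, hb, hq, by linarith⟩,
    ⟨above_isCompact h.compA s, above_isCompact h.compB t, above_convex h.convA s,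
      above_convex h.convB t, ha, hq', by linarith⟩⟩

/-- The largest slice. -/
noncomputable def maxSlice (C : Set (E (n + 1))) : ℝ :=
  sSup (range fun t => volume.real (slice C t))

lemma slice_bddAbove {C : Set (E (n + 1))} (hC : IsCompact C) :
    BddAbove (range fun t => volume.real (slice C t)) := by
  refine ⟨volume.real (tl '' C), ?_⟩
  rintro _ ⟨t, rfl⟩
  exact measureReal_mono (fun y hy => ⟨_, hy, tl_cons _ _⟩) (hC.image tl.continuous).measure_lt_top.ne

lemma le_maxSlice {C : Set (E (n + 1))} (hC : IsCompact C) (t : ℝ) :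
    volume.real (slice C t) ≤ maxSlice C :=
  le_csSup (slice_bddAbove hC) ⟨t, rfl⟩

lemma maxSlice_pos {C : Set (E (n + 1))} (hC : IsCompact C) (h : 0 < volume.real C) :
    0 < maxSlice C := by
  by_contra hcon
  have hz : ∀ t, volume (slice C t) = 0 := fun t => by
    have := le_antisymm ((le_maxSlice hC t).trans (not_lt.1 hcon)) measureReal_nonneg
    rwa [measureReal_eq_zero_iff (slice_isCompact hC t).measure_lt_top.ne] at this
  rw [measureReal_def, volume_eq_lintegral_slice hC.measurableSet] at h
  simp [hz] at h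

/-- In an equality pair the largest slices agree. -/
lemma EqPair.maxSlice_eq {A B : Set (E (n + 1 + 1))} (h : EqPair A B) :
    maxSlice A = maxSlice B := by
  obtain ⟨hAc, hBc, hAv, hBv, hV0, hv, heq⟩ := h
  set V := volume.real A with hVdef
  set α := maxSlice A
  set β := maxSlice B
  have hα0 : 0 < α := maxSlice_pos hAc hV0
  have hβ0 : 0 < β := maxSlice_pos hBc (hv ▸ hV0)
  set e : ℝ := (((n + 1 : ℕ):ℝ)⁻¹) with he
  have he0 : 0 < e := by positivity
  set D := A + B with hD
  have hDc : IsCompact D := hAc.add hBc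
  have hDv : Convex ℝ D := hAv.add hBv
  have hpow : ∀ x : ℝ, 0 ≤ x → (x ^ e) ^ (n + 1) = x := fun x hx =>
    rpow_inv_natCast_pow hx (by omega)
  have hbm : ∀ s t, 0 < volume.real (slice A s) → 0 < volume.real (slice B t) →
      volume.real (slice A s) ^ e + volume.real (slice B t) ^ e ≤
        volume.real (slice D (s + t)) ^ e := fun s t hs ht => by
    have hsub : slice A s + slice B t ⊆ slice D (s + t) := by
      rintro _ ⟨x, hx, y, hy, rfl⟩
      exact ⟨cons s x, hx, cons t y, hy, cons_add s t x y⟩
    exact (bm_add (by omega) (slice_convex hAv s) (slice_isCompact hAc s)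
      (slice_nonempty_of_pos hs) (slice_convex hBv t) (slice_isCompact hBc t)
      (slice_nonempty_of_pos ht)).trans (rpow_le_rpow measureReal_nonneg
        (measureReal_mono hsub (slice_isCompact hDc _).measure_lt_top.ne) he0.le)
  set a := α ^ e
  set b := β ^ e
  have ha0 : 0 < a := rpow_pos_of_pos hα0 e
  have hb0 : 0 < b := rpow_pos_of_pos hβ0 e
  set δ := (a + b) ^ (n + 1) with hδ
  have hδ0 : 0 < δ := pow_pos (add_pos ha0 hb0) _
  set S := fun θ : ℝ => {t : ℝ | θ < volume.real (slice A t) / α}
  set T := fun θ : ℝ => {t : ℝ | θ < volume.real (slice B t) / β}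
  set U := fun θ : ℝ => {t : ℝ | θ < volume.real (slice D t) / δ}
  have hlayer : ∀ θ : ℝ, 0 < θ → θ < 1 → volume (S θ) + volume (T θ) ≤ volume (U θ) := by
    intro θ hθ hθ1
    have hconn : ∀ x ∈ U θ, ∀ y ∈ U θ, ∀ z ∈ Icc x y, z ∈ U θ := by
      intro x hx y hy z hz
      have hx' : θ * δ < volume.real (slice D x) := (lt_div_iff₀ hδ0).1 hx
      have hy' : θ * δ < volume.real (slice D y) := (lt_div_iff₀ hδ0).1 hy
      have hpx : 0 < volume.real (slice D x) := (mul_pos hθ hδ0).trans hx'
      have hpy : 0 < volume.real (slice D y) := (mul_pos hθ hδ0).trans hy'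
      rcases (hz.1.trans hz.2).eq_or_lt with hxy | hxy
      · rwa [show z = x from le_antisymm (hz.2.trans hxy.ge) hz.1]
      set p := (y - z) / (y - x)
      set q := (z - x) / (y - x)
      have hp : 0 ≤ p := div_nonneg (by linarith [hz.2]) (by linarith)
      have hq : 0 ≤ q := div_nonneg (by linarith [hz.1]) (by linarith)
      have hpq : p + q = 1 := by
        rw [← add_div, div_eq_one_iff_eq (by linarith)]; ring
      have hzz : p * x + q * y = z := by
        rw [div_mul_eq_mul_div, div_mul_eq_mul_div, ← add_div, div_eq_iff (by linarith)]; ring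
      have hb := bm (n := n + 1) (by omega) (slice_convex hDv x) (slice_isCompact hDc x)
        (slice_nonempty_of_pos hpx) (slice_convex hDv y) (slice_isCompact hDc y)
        (slice_nonempty_of_pos hpy) (slice_convex hDv z) (slice_isCompact hDc z) hp hq hpq (by
          intro u hu w hw
          have := hDv hu hw hp hq hpq
          rw [smul_cons, smul_cons, cons_add, hzz] at this
          exact this)
      have hm : ∀ w : ℝ, θ * δ < w → (θ * δ) ^ e < w ^ e := fun w hw =>
        rpow_lt_rpow (by positivity) hw he0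
      have h1 : (θ * δ) ^ e < volume.real (slice D z) ^ e := by
        refine lt_of_lt_of_le ?_ hb
        rcases hp.eq_or_lt with h | h
        · have hq1 : q = 1 := by linarith
          rw [← h, hq1, zero_mul, one_mul, zero_add]; exact hm _ hy'
        · calc (θ * δ) ^ e = p * (θ * δ) ^ e + q * (θ * δ) ^ e := by rw [← add_mul, hpq, one_mul]
            _ < _ := add_lt_add_of_lt_of_le (mul_lt_mul_of_pos_left (hm _ hx') h)
                (mul_le_mul_of_nonneg_left (hm _ hy').le hq)
      exact (lt_div_iff₀ hδ0).2 ((rpow_lt_rpow_iff (by positivity) measureReal_nonneg he0).1 h1)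
    have hxy : ∀ x ∈ S θ, ∀ y ∈ T θ, x + y ∈ U θ := by
      intro x hx y hy
      have hx' : θ * α < volume.real (slice A x) := (lt_div_iff₀ hα0).1 hx
      have hy' : θ * β < volume.real (slice B y) := (lt_div_iff₀ hβ0).1 hy
      have h1 := hbm x y ((mul_pos hθ hα0).trans hx') ((mul_pos hθ hβ0).trans hy')
      have h2 : θ ^ e * a < volume.real (slice A x) ^ e := by
        rw [← mul_rpow hθ.le hα0.le]
        exact rpow_lt_rpow (by positivity) hx' he0
      have h3 : θ ^ e * b < volume.real (slice B y) ^ e := by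
        rw [← mul_rpow hθ.le hβ0.le]
        exact rpow_lt_rpow (by positivity) hy' he0
      have h4 := pow_lt_pow_left₀ (by linarith :
        θ ^ e * (a + b) < volume.real (slice D (x + y)) ^ e) (by positivity)
        (by omega : n + 1 ≠ 0)
      rw [mul_pow, hpow _ hθ.le, hpow _ measureReal_nonneg] at h4
      exact (lt_div_iff₀ hδ0).2 h4
    have hSne : (S θ).Nonempty := by
      obtain ⟨_, ⟨x, rfl⟩, hx⟩ := exists_lt_of_lt_csSup (range_nonempty _)
        (mul_lt_of_lt_one_left hα0 hθ1)
      exact ⟨x, (lt_div_iff₀ hα0).2 hx⟩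
    have hTne : (T θ).Nonempty := by
      obtain ⟨_, ⟨x, rfl⟩, hx⟩ := exists_lt_of_lt_csSup (range_nonempty _)
        (mul_lt_of_lt_one_left hβ0 hθ1)
      exact ⟨x, (lt_div_iff₀ hβ0).2 hx⟩
    have hbd : ∀ (C : Set (E (n + 1 + 1))) (_ : IsCompact C) (γ : ℝ) (_ : 0 < γ),
        ∃ R, ∀ t, θ < volume.real (slice C t) / γ → |t| ≤ R := by
      intro C hC γ hγ
      obtain ⟨R, hR⟩ := (hC.image (f := fun z : E (n + 1 + 1) => |hd z|) (by fun_prop)).bddAbove
      refine ⟨R, fun t ht => ?_⟩
      obtain ⟨y, hy⟩ := slice_nonempty_of_pos (C := C) (t := t) (by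
        have := (lt_div_iff₀ hγ).1 ht; nlinarith)
      exact (by simp : |t| = |hd (cons t y)|).le.trans (hR ⟨_, hy, rfl⟩)
    obtain ⟨RA, hRA⟩ := hbd A hAc α hα0
    obtain ⟨RB, hRB⟩ := hbd B hBc β hβ0
    have hSb : BddBelow (S θ) ∧ BddAbove (S θ) :=
      ⟨⟨-RA, fun t ht => (abs_le.1 (hRA t ht)).1⟩, ⟨RA, fun t ht => (abs_le.1 (hRA t ht)).2⟩⟩
    have hTb : BddBelow (T θ) ∧ BddAbove (T θ) :=
      ⟨⟨-RB, fun t ht => (abs_le.1 (hRB t ht)).1⟩, ⟨RB, fun t ht => (abs_le.1 (hRB t ht)).2⟩⟩
    have hS : volume (S θ) ≤ ENNReal.ofReal (sSup (S θ) - sInf (S θ)) := by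
      rw [← Real.volume_Icc]
      exact measure_mono fun x hx => ⟨csInf_le hSb.1 hx, le_csSup hSb.2 hx⟩
    have hT : volume (T θ) ≤ ENNReal.ofReal (sSup (T θ) - sInf (T θ)) := by
      rw [← Real.volume_Icc]
      exact measure_mono fun x hx => ⟨csInf_le hTb.1 hx, le_csSup hTb.2 hx⟩
    refine (add_le_add hS hT).trans ?_
    rw [← ENNReal.ofReal_add (sub_nonneg.2 ((csInf_le hSb.1 hSne.some_mem).trans (le_csSup hSb.2 hSne.some_mem)))
      (sub_nonneg.2 ((csInf_le hTb.1 hTne.some_mem).trans (le_csSup hTb.2 hTne.some_mem)))]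
    have hU : volume (Ioo (sInf (S θ) + sInf (T θ)) (sSup (S θ) + sSup (T θ))) ≤ volume (U θ) := by
      refine measure_mono fun z hz => ?_
      set ε₁ := z - (sInf (S θ) + sInf (T θ))
      set ε₂ := sSup (S θ) + sSup (T θ) - z
      have hε₁ : 0 < ε₁ := sub_pos.2 hz.1
      have hε₂ : 0 < ε₂ := sub_pos.2 hz.2
      obtain ⟨x, hx, hx'⟩ := exists_lt_of_csInf_lt hSne (lt_add_of_pos_right _ (half_pos hε₁))
      obtain ⟨y, hy, hy'⟩ := exists_lt_of_csInf_lt hTne (lt_add_of_pos_right _ (half_pos hε₁))
      obtain ⟨x', hx2, hx2'⟩ := exists_lt_of_lt_csSup hSne (sub_lt_self _ (half_pos hε₂))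
      obtain ⟨y', hy2, hy2'⟩ := exists_lt_of_lt_csSup hTne (sub_lt_self _ (half_pos hε₂))
      exact hconn _ (hxy x hx y hy) _ (hxy x' hx2 y' hy2) z ⟨by linarith, by linarith⟩
    rw [Real.volume_Ioo] at hU
    refine le_trans (le_of_eq ?_) hU
    congr 1; ring
  have hvan : ∀ θ : ℝ, 1 ≤ θ → volume (S θ) + volume (T θ) = 0 := by
    intro θ hθ
    have hSe : S θ = ∅ := eq_empty_of_forall_notMem fun t ht => by
      have h' : θ < volume.real (slice A t) / α := ht
      have := (div_le_one hα0).2 (le_maxSlice hAc t); linarith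
    have hTe : T θ = ∅ := eq_empty_of_forall_notMem fun t ht => by
      have h' : θ < volume.real (slice B t) / β := ht
      have := (div_le_one hβ0).2 (le_maxSlice hBc t); linarith
    simp [hSe, hTe]
  have hbase : V / α + V / β ≤ volume.real D / δ := by
    have hSmeas : Measurable fun θ => volume (S θ) :=
      Antitone.measurable fun x y hxy => measure_mono fun t ht => lt_of_le_of_lt hxy ht
    have hpt : ∀ θ ∈ Ioi (0:ℝ), volume (S θ) + volume (T θ) ≤ volume (U θ) := by
      intro θ hθ
      rcases lt_or_ge θ 1 with h | h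
      · exact hlayer θ hθ h
      · rw [hvan θ h]; exact zero_le
    have hsum := lintegral_mono_ae (μ := volume.restrict (Ioi (0:ℝ)))
      ((ae_restrict_mem measurableSet_Ioi).mono hpt)
    rw [lintegral_add_left hSmeas, ← lintegral_div_slice hAc hα0, ← lintegral_div_slice hBc hβ0,
      ← lintegral_div_slice hDc hδ0, ← ENNReal.ofReal_add (by positivity) (by positivity),
      ENNReal.ofReal_le_ofReal_iff (by positivity)] at hsum
    rwa [← hv] at hsum
  have hsum' : 1 / α + 1 / β ≤ 2 ^ (n + 1 + 1) / δ := by
    refine le_of_mul_le_mul_left ?_ hV0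
    refine le_trans (le_of_eq ?_) ((hbase.trans (div_le_div_of_nonneg_right heq hδ0.le)).trans_eq ?_) <;>
      ring
  have hαa : α = a ^ (n + 1) := (hpow α hα0.le).symm
  have hβb : β = b ^ (n + 1) := (hpow β hβ0.le).symm
  have hab : a = b := by
    by_contra hne
    have h := strict_convex_neg_pow n ha0 hb0 hne
    rw [← hαa, ← hβb, ← hδ] at h
    exact absurd (pow_le_pow_left₀ (by positivity) hsum' 2) (not_le.2 h)
  rw [hαa, hβb, hab]

end Vale.Agent.P237.Sharp
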