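import Mathlib
import Vale.Agent.P237.Sharp.EqSplit

/-!
# P237, sharp route: the mass profile of a convex body along a direction
-/

open MeasureTheory Set Real Filter Topology
open scoped Pointwise RealInnerProductSpace ENNReal

namespace Vale.Agent.P237.Sharp

variable {n : ℕ}

/-- Volume of the part below `s`. -/
noncomputable def mass (C : Set (E (n + 1))) (s : ℝ) : ℝ := volume.real (below C s)

/-- Lowest height. -/
noncomputable def low (C : Set (E (n + 1))) : ℝ := sInf (hd '' C)

/-- Highest height. -/
noncomputable def high (C : Set (E (n + 1))) : ℝ := sSup (hd '' C)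

lemma measurable_profile {C : Set (E (n + 1))} (hC : IsCompact C) :
    Measurable fun t => volume (slice C t) :=
  measurable_measure_prodMk_left (ν := (volume : Measure (E n)))
    (hC.measurableSet.preimage continuous_cons.measurable)

lemma integrable_profile {C : Set (E (n + 1))} (hC : IsCompact C) :
    Integrable fun t => volume.real (slice C t) := by
  refine integrable_toReal_of_lintegral_ne_top (measurable_profile hC).aemeasurable ?_
  rw [← volume_eq_lintegral_slice hC.measurableSet]
  exact hC.measure_lt_top.ne

lemma volume_eq_integral {C : Set (E (n + 1))} (hC : IsCompact C) :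
    volume.real C = ∫ t, volume.real (slice C t) := by
  have : ∫ t, (volume (slice C t)).toReal = (∫⁻ t, volume (slice C t)).toReal :=
    integral_toReal (measurable_profile hC).aemeasurable
      (Filter.Eventually.of_forall fun t => (slice_isCompact hC t).measure_lt_top)
  show (volume C).toReal = _
  rw [volume_eq_lintegral_slice hC.measurableSet]
  exact this.symm

lemma slice_below (C : Set (E (n + 1))) (s t : ℝ) :
    slice (below C s) t = if t ≤ s then slice C t else ∅ := by
  ext y
  by_cases h : t ≤ s <;> simp [slice, below, h]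

lemma slice_above (C : Set (E (n + 1))) (s t : ℝ) :
    slice (above C s) t = if s ≤ t then slice C t else ∅ := by
  ext y
  by_cases h : s ≤ t <;> simp [slice, above, h]

lemma mass_eq {C : Set (E (n + 1))} (hC : IsCompact C) (s : ℝ) :
    mass C s = ∫ t in Iic s, volume.real (slice C t) := by
  rw [mass, volume_eq_integral (below_isCompact hC s), ← integral_indicator measurableSet_Iic]
  congr 1
  funext t
  rw [slice_below]
  by_cases h : t ≤ s <;> simp [indicator, h]

lemma mass_sub {C : Set (E (n + 1))} (hC : IsCompact C) (s s' : ℝ) :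
    mass C s' - mass C s = ∫ t in s..s', volume.real (slice C t) := by
  rw [mass_eq hC, mass_eq hC, intervalIntegral.integral_Iic_sub_Iic
    (integrable_profile hC).integrableOn (integrable_profile hC).integrableOn]

lemma mass_continuous {C : Set (E (n + 1))} (hC : IsCompact C) : Continuous (mass C) := by
  have : mass C = fun s => mass C 0 + ∫ t in (0:ℝ)..s, volume.real (slice C t) :=
    funext fun s => by linarith [mass_sub hC 0 s]
  rw [this]
  exact continuous_const.add
    (intervalIntegral.continuous_primitive (fun a b => (integrable_profile hC).intervalIntegrable) 0)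

section Body

variable {C : Set (E (n + 1 + 1))}

lemma low_mem (hC : IsCompact C) (hne : C.Nonempty) : ∃ x ∈ C, hd x = low C :=
  (hC.image hd.continuous).sInf_mem (hne.image hd)

lemma high_mem (hC : IsCompact C) (hne : C.Nonempty) : ∃ x ∈ C, hd x = high C :=
  (hC.image hd.continuous).sSup_mem (hne.image hd)

lemma mem_range_hd (hC : IsCompact C) {x : E (n + 1 + 1)} (hx : x ∈ C) :
    hd x ∈ Icc (low C) (high C) :=
  ⟨csInf_le (hC.image hd.continuous).bddBelow ⟨x, hx, rfl⟩,
    le_csSup (hC.image hd.continuous).bddAbove ⟨x, hx, rfl⟩⟩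

lemma slice_empty_outside (hC : IsCompact C) {t : ℝ} (ht : t ∉ Icc (low C) (high C)) :
    slice C t = ∅ :=
  eq_empty_iff_forall_notMem.2 fun y hy => ht (by simpa using mem_range_hd hC hy)

lemma profile_concave (hC : IsCompact C) (hCv : Convex ℝ C) (hne : C.Nonempty) :
    ConcaveOn ℝ (Icc (low C) (high C))
      (fun t => volume.real (slice C t) ^ (((n + 1 : ℕ):ℝ)⁻¹)) := by
  have hsne : ∀ t ∈ Icc (low C) (high C), (slice C t).Nonempty := by
    intro t ht
    obtain ⟨x, hx, hxl⟩ := low_mem hC hne
    obtain ⟨y, hy, hyh⟩ := high_mem hC hne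
    rcases (ht.1.trans ht.2).eq_or_lt with h | h
    · refine ⟨tl x, ?_⟩
      show cons t (tl x) ∈ C
      rwa [show t = hd x by linarith [ht.1, ht.2], cons_hd_tl]
    set p := (high C - t) / (high C - low C)
    set q := (t - low C) / (high C - low C)
    have := hCv hx hy (div_nonneg (by linarith [ht.2]) (by linarith) : 0 ≤ p)
      (div_nonneg (by linarith [ht.1]) (by linarith) : 0 ≤ q)
      (by rw [← add_div, div_eq_one_iff_eq (by linarith)]; ring)
    refine ⟨tl (p • x + q • y), ?_⟩
    show cons t _ ∈ C
    rwa [show t = hd (p • x + q • y) from ?_, cons_hd_tl]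
    simp only [map_add, map_smul, smul_eq_mul, hxl, hyh, p, q]
    rw [div_mul_eq_mul_div, div_mul_eq_mul_div, ← add_div, eq_div_iff (by linarith)]; ring
  refine ⟨convex_Icc _ _, fun x hx y hy p q hp hq hpq => ?_⟩
  refine bm (n := n + 1) (by omega) (slice_convex hCv x) (slice_isCompact hC x) (hsne x hx)
    (slice_convex hCv y) (slice_isCompact hC y) (hsne y hy) (slice_convex hCv _)
    (slice_isCompact hC _) hp hq hpq ?_
  intro z hz z' hz'
  have := hCv hz hz' hp hq hpq
  rw [smul_cons, smul_cons, cons_add] at this
  exact this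

variable (hC : IsCompact C) (hCv : Convex ℝ C) (hV : 0 < volume.real C)
include hC hCv hV

lemma low_lt_high : low C < high C := by
  by_contra h
  have hsub : C ⊆ {x | hd x = low C} := fun x hx => by
    have := mem_range_hd hC hx
    show hd x = low C
    linarith [this.1, this.2, not_lt.1 h]
  have := measure_mono_null hsub (hyperplane_null (low C))
  simp [measureReal_def, this] at hV

lemma profile_pos {t : ℝ} (ht : t ∈ Ioo (low C) (high C)) : 0 < volume.real (slice C t) := by
  have hne := nonempty_of_vol_pos hV
  obtain ⟨y, hy⟩ : ∃ y, 0 < volume.real (slice C y) := by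
    by_contra hcon
    push Not at hcon
    rw [volume_eq_integral hC, integral_eq_zero_of_ae
      (Filter.Eventually.of_forall fun t => le_antisymm (hcon t) measureReal_nonneg)] at hV
    exact lt_irrefl _ hV
  have hyI : y ∈ Icc (low C) (high C) := by_contra fun h => by
    simp [slice_empty_outside hC h, measureReal_def] at hy
  set e : ℝ := (((n + 1 : ℕ):ℝ)⁻¹)
  have he : 0 < e := by positivity
  have hf := profile_concave hC hCv hne
  obtain ⟨z, hz, θ, hθ0, hθ1, hzt⟩ : ∃ z ∈ Icc (low C) (high C), ∃ θ : ℝ, 0 < θ ∧ θ ≤ 1 ∧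
      θ * y + (1 - θ) * z = t := by
    rcases lt_trichotomy y t with h | h | h
    · refine ⟨high C, ⟨(low_lt_high hC hCv hV).le, le_rfl⟩, (high C - t) / (high C - y),
        div_pos (by linarith [ht.2]) (by linarith [ht.2]),
        (div_le_one (by linarith [ht.2])).2 (by linarith), ?_⟩
      have : high C - y ≠ 0 := by linarith [ht.2]
      field_simp
      ring
    · exact ⟨y, hyI, 1, one_pos, le_rfl, by linarith⟩
    · refine ⟨low C, ⟨le_rfl, (low_lt_high hC hCv hV).le⟩, (t - low C) / (y - low C),
        div_pos (by linarith [ht.1]) (by linarith [ht.1]),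
        (div_le_one (by linarith [ht.1])).2 (by linarith), ?_⟩
      have : y - low C ≠ 0 := by linarith [ht.1]
      field_simp
      ring
  have h2 := hf.2 hyI hz hθ0.le (sub_nonneg.2 hθ1) (by ring)
  simp only [smul_eq_mul, hzt] at h2
  have h3 : 0 < volume.real (slice C t) ^ e := by
    refine lt_of_lt_of_le ?_ h2
    exact add_pos_of_pos_of_nonneg (mul_pos hθ0 (rpow_pos_of_pos hy _))
      (mul_nonneg (sub_nonneg.2 hθ1) (rpow_nonneg measureReal_nonneg _))
  rcases (measureReal_nonneg : (0:ℝ) ≤ volume.real (slice C t)).eq_or_lt with h | h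
  · rw [← h, zero_rpow he.ne'] at h3; exact absurd h3 (lt_irrefl _)
  · exact h

lemma profile_continuousOn :
    ContinuousOn (fun t => volume.real (slice C t)) (Ioo (low C) (high C)) := by
  have hf := ((profile_concave hC hCv (nonempty_of_vol_pos hV)).subset Ioo_subset_Icc_self
    (convex_Ioo _ _)).continuousOn isOpen_Ioo
  exact (hf.pow (n + 1)).congr fun t _ =>
    (rpow_inv_natCast_pow measureReal_nonneg (by omega)).symm

lemma mass_low : mass C (low C) = 0 := by
  have := measure_mono_null (μ := volume)
    (fun x (hx : x ∈ below C (low C)) =>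
      show hd x = low C from le_antisymm hx.2 (mem_range_hd hC hx.1).1) (hyperplane_null (low C))
  simp [mass, measureReal_def, this]

lemma mass_high : mass C (high C) = volume.real C := by
  have : below C (high C) = C := inter_eq_left.2 fun x hx => (mem_range_hd hC hx).2
  rw [mass, this]

lemma mass_strictMonoOn : StrictMonoOn (mass C) (Icc (low C) (high C)) := by
  intro x hx y hy hxy
  rw [← sub_pos, mass_sub hC]
  exact intervalIntegral.intervalIntegral_pos_of_pos_on
    (integrable_profile hC).intervalIntegrable
    (fun t ht => profile_pos hC hCv hV ⟨hx.1.trans_lt ht.1, ht.2.trans_le hy.2⟩) hxy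

lemma mass_hasDerivAt {s : ℝ} (hs : s ∈ Ioo (low C) (high C)) :
    HasDerivAt (mass C) (volume.real (slice C s)) s := by
  have hca : ContinuousAt (fun t => volume.real (slice C t)) s :=
    (profile_continuousOn hC hCv hV).continuousAt (isOpen_Ioo.mem_nhds hs)
  have hd' := intervalIntegral.integral_hasDerivAt_right (a := s)
    (integrable_profile hC).intervalIntegrable
    ((integrable_profile hC).aestronglyMeasurable.stronglyMeasurableAtFilter) hca
  have : mass C = fun u => mass C s + ∫ t in s..u, volume.real (slice C t) :=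
    funext fun u => by linarith [mass_sub hC s u]
  rw [this]
  exact hd'.const_add _

lemma exists_quantile {q : ℝ} (hq : q ∈ Ioo 0 (volume.real C)) :
    ∃ p ∈ Ioo (low C) (high C), mass C p = q := by
  have := intermediate_value_Ioo (low_lt_high hC hCv hV).le (mass_continuous hC).continuousOn
  rw [mass_low hC hCv hV, mass_high hC hCv hV] at this
  exact this hq

omit hC hCv hV in
/-- The inverse of the mass profile. -/
noncomputable def quantile (C : Set (E (n + 1 + 1))) (q : ℝ) : ℝ :=
  Classical.epsilon fun p => p ∈ Ioo (low C) (high C) ∧ mass C p = q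

lemma quantile_spec {q : ℝ} (hq : q ∈ Ioo 0 (volume.real C)) :
    quantile C q ∈ Ioo (low C) (high C) ∧ mass C (quantile C q) = q :=
  Classical.epsilon_spec (p := fun p => p ∈ Ioo (low C) (high C) ∧ mass C p = q)
    (exists_quantile hC hCv hV hq)

lemma quantile_mass {p : ℝ} (hp : p ∈ Ioo (low C) (high C)) : quantile C (mass C p) = p := by
  have hm := mass_strictMonoOn hC hCv hV
  have h0 : mass C p ∈ Ioo 0 (volume.real C) := by
    constructor
    · rw [← mass_low hC hCv hV]
      exact hm ⟨le_rfl, (low_lt_high hC hCv hV).le⟩ (Ioo_subset_Icc_self hp) hp.1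
    · rw [← mass_high hC hCv hV]
      exact hm (Ioo_subset_Icc_self hp) ⟨(low_lt_high hC hCv hV).le, le_rfl⟩ hp.2
  obtain ⟨h1, h2⟩ := quantile_spec hC hCv hV h0
  exact hm.injOn (Ioo_subset_Icc_self h1) (Ioo_subset_Icc_self hp) h2

lemma quantile_continuousAt {q : ℝ} (hq : q ∈ Ioo 0 (volume.real C)) :
    ContinuousAt (quantile C) q := by
  obtain ⟨hp, hpq⟩ := quantile_spec hC hCv hV hq
  set p := quantile C q
  have hm := mass_strictMonoOn hC hCv hV
  rw [Metric.continuousAt_iff']
  intro ε hε
  set d := min (ε / 2) (min ((p - low C) / 2) ((high C - p) / 2))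
  have hd0 : 0 < d := lt_min (half_pos hε) (lt_min (by linarith [hp.1]) (by linarith [hp.2]))
  have h1 : p - d ∈ Icc (low C) (high C) := by
    have := (min_le_right (ε / 2) _).trans (min_le_left ((p - low C) / 2) ((high C - p) / 2))
    constructor <;> linarith [hp.1, hp.2]
  have h2 : p + d ∈ Icc (low C) (high C) := by
    have := (min_le_right (ε / 2) _).trans (min_le_right ((p - low C) / 2) ((high C - p) / 2))
    constructor <;> linarith [hp.1, hp.2]
  have l1 : mass C (p - d) < q := hpq ▸ hm h1 (Ioo_subset_Icc_self hp) (by linarith)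
  have l2 : q < mass C (p + d) := hpq ▸ hm (Ioo_subset_Icc_self hp) h2 (by linarith)
  filter_upwards [Ioo_mem_nhds l1 l2, isOpen_Ioo.mem_nhds hq] with q' hq' hq''
  obtain ⟨hp', hpq'⟩ := quantile_spec hC hCv hV hq''
  have a1 : p - d < quantile C q' :=
    (hm.lt_iff_lt h1 (Ioo_subset_Icc_self hp')).1 (hpq'.symm ▸ hq'.1)
  have a2 : quantile C q' < p + d :=
    (hm.lt_iff_lt (Ioo_subset_Icc_self hp') h2).1 (hpq'.symm ▸ hq'.2)
  rw [Real.dist_eq, abs_lt]
  have := min_le_left (ε / 2) (min ((p - low C) / 2) ((high C - p) / 2))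
  constructor <;> linarith

lemma quantile_hasDerivAt {q : ℝ} (hq : q ∈ Ioo 0 (volume.real C)) :
    HasDerivAt (quantile C) (volume.real (slice C (quantile C q)))⁻¹ q := by
  obtain ⟨hp, hpq⟩ := quantile_spec hC hCv hV hq
  refine HasDerivAt.of_local_left_inverse (quantile_continuousAt hC hCv hV hq)
    (mass_hasDerivAt hC hCv hV hp) (profile_pos hC hCv hV hp).ne' ?_
  filter_upwards [isOpen_Ioo.mem_nhds hq] with q' hq' using (quantile_spec hC hCv hV hq').2

end Body

end Vale.Agent.P237.Sharp
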