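import Mathlib
import Vale.Agent.P237.Sharp.Mass

/-!
# P237, sharp route: equality in Brunn–Minkowski against a symmetric body forces a translate
-/

open MeasureTheory Set Real Filter Topology
open scoped Pointwise RealInnerProductSpace ENNReal

namespace Vale.Agent.P237.Sharp

variable {n : ℕ}

lemma maxSlice_slab {C : Set (E (n + 1))} (hC : IsCompact C) {s s' : ℝ} (hs : s ≤ s') {ε : ℝ}
    (h : ∀ t ∈ Icc s s', volume.real (slice C t) ≤ volume.real (slice C s) + ε) :
    volume.real (slice C s) ≤ maxSlice (above (below C s') s) ∧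
      maxSlice (above (below C s') s) ≤ volume.real (slice C s) + ε := by
  have hsl : ∀ t, slice (above (below C s') s) t = if t ∈ Icc s s' then slice C t else ∅ := by
    intro t
    rw [slice_above, slice_below]
    by_cases h1 : s ≤ t <;> by_cases h2 : t ≤ s' <;> simp [h1, h2]
  constructor
  · refine le_trans (le_of_eq ?_) (le_maxSlice (above_isCompact (below_isCompact hC s') s) s)
    rw [hsl, if_pos (left_mem_Icc.2 hs)]
  · refine csSup_le (range_nonempty _) ?_
    rintro _ ⟨t, rfl⟩
    simp only [hsl]
    by_cases ht : t ∈ Icc s s'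
    · rw [if_pos ht]; exact h t ht
    · rw [if_neg ht]
      have h1 : (0:ℝ) ≤ volume.real (slice C s) + ε :=
        measureReal_nonneg.trans (h s (left_mem_Icc.2 hs))
      simpa [measureReal_def] using h1

/-- Matched slices of an equality pair have equal volume. -/
lemma EqPair.slice_eq {A B : Set (E (n + 1 + 1))} (h : EqPair A B) {q : ℝ}
    (hq : q ∈ Ioo 0 (volume.real A)) :
    volume.real (slice A (quantile A q)) = volume.real (slice B (quantile B q)) := by
  have hAc := h.compA
  have hBc := h.compB
  have hVA := h.pos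
  have hVB : 0 < volume.real B := h.vol_eq ▸ hVA
  have hqB : q ∈ Ioo 0 (volume.real B) := h.vol_eq ▸ hq
  obtain ⟨hp, hpq⟩ := quantile_spec hAc h.convA hVA hq
  obtain ⟨hp2, hpq2⟩ := quantile_spec hBc h.convB hVB hqB
  set p := quantile A q
  set p2 := quantile B q
  refine eq_of_forall_dist_le fun ε hε => ?_
  rw [Real.dist_eq]
  obtain ⟨d1, hd1, hc1⟩ := Metric.continuousAt_iff.1
    ((profile_continuousOn hAc h.convA hVA).continuousAt (isOpen_Ioo.mem_nhds hp)) ε hε
  obtain ⟨d2, hd2, hc2⟩ := Metric.continuousAt_iff.1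
    ((profile_continuousOn hBc h.convB hVB).continuousAt (isOpen_Ioo.mem_nhds hp2)) ε hε
  have e1 := Metric.tendsto_nhds.1 (quantile_continuousAt hAc h.convA hVA hq) d1 hd1
  have e2 := Metric.tendsto_nhds.1 (quantile_continuousAt hBc h.convB hVB hqB) d2 hd2
  obtain ⟨q', ⟨⟨⟨h1, h2⟩, hI⟩, hlt⟩⟩ := (((e1.and e2).and (isOpen_Ioo.mem_nhds hq)).filter_mono
    nhdsWithin_le_nhds |>.and (self_mem_nhdsWithin (a := q) (s := Ioi q))).exists
  obtain ⟨hp', hpq'⟩ := quantile_spec hAc h.convA hVA hI
  obtain ⟨hp2', hpq2'⟩ := quantile_spec hBc h.convB hVB (h.vol_eq ▸ hI)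
  set p' := quantile A q'
  set p2' := quantile B q'
  have hlt' : q < q' := hlt
  have hpp : p < p' := ((mass_strictMonoOn hAc h.convA hVA).lt_iff_lt (Ioo_subset_Icc_self hp)
    (Ioo_subset_Icc_self hp')).1 (by rw [hpq, hpq']; exact hlt')
  have hpp2 : p2 < p2' := ((mass_strictMonoOn hBc h.convB hVB).lt_iff_lt (Ioo_subset_Icc_self hp2)
    (Ioo_subset_Icc_self hp2')).1 (by rw [hpq2, hpq2']; exact hlt')
  have hsum := volume_below_add_above hAc p'
  have hb1 : volume.real (below A p') = q' := hpq'
  obtain ⟨hbot, -⟩ := h.split (s := p') (t := p2') (hb1.trans hpq2'.symm)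
    (by rw [hb1]; exact hI.1) (by linarith [hI.2])
  have hnest : ∀ {C : Set (E (n + 1 + 1))} {x y : ℝ}, x ≤ y → below (below C y) x = below C x := by
    intro C x y hxy
    ext z
    simp only [below, mem_inter_iff, mem_ofPred_eq]
    exact ⟨fun hz => ⟨hz.1.1, hz.2⟩, fun hz => ⟨⟨hz.1, hz.2.trans hxy⟩, hz.2⟩⟩
  have hb2 : volume.real (below (below A p') p) = q := by rw [hnest hpp.le]; exact hpq
  have hsum2 := volume_below_add_above (below_isCompact hAc p') p
  obtain ⟨-, hslab⟩ := hbot.split (s := p) (t := p2)
    (by rw [hb2, hnest hpp2.le]; exact hpq2.symm) (by rw [hb2]; exact hq.1) (by linarith)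
  have hM := hslab.maxSlice_eq
  have key : ∀ {C : Set (E (n + 1 + 1))} {x x' d : ℝ},
      (∀ {y}, dist y x < d → dist (volume.real (slice C y)) (volume.real (slice C x)) < ε) →
      dist x' x < d → ∀ t ∈ Icc x x', volume.real (slice C t) ≤ volume.real (slice C x) + ε := by
    intro C x x' d hc hx t ht
    rw [Real.dist_eq, abs_lt] at hx
    have hd : dist t x < d := by rw [Real.dist_eq, abs_lt]; constructor <;> linarith [ht.1, ht.2]
    have := hc hd
    rw [Real.dist_eq, abs_lt] at this
    linarith
  obtain ⟨u1, u2⟩ := maxSlice_slab hAc hpp.le (key (fun {y} hy => hc1 hy) h1)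
  obtain ⟨w1, w2⟩ := maxSlice_slab hBc hpp2.le (key (fun {y} hy => hc2 hy) h2)
  rw [abs_le]; constructor <;> linarith

/-- Equality pairs have translated height profiles. -/
lemma EqPair.exists_shift {A B : Set (E (n + 1 + 1))} (h : EqPair A B) :
    ∃ c : ℝ, low A = low B + c ∧ high A = high B + c ∧
      ∀ t ∈ Ioo (low A) (high A), volume.real (slice A t) = volume.real (slice B (t - c)) := by
  have hAc := h.compA
  have hBc := h.compB
  have hVA := h.pos
  have hVB : 0 < volume.real B := h.vol_eq ▸ hVA
  set V := volume.real A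
  have hder : ∀ q ∈ Ioo 0 V, HasDerivAt (fun q => quantile A q - quantile B q) 0 q := by
    intro q hq
    have := (quantile_hasDerivAt hAc h.convA hVA hq).sub
      (quantile_hasDerivAt hBc h.convB hVB (h.vol_eq ▸ hq))
    rw [h.slice_eq hq, sub_self] at this
    exact this
  obtain ⟨c, hc⟩ := isOpen_Ioo.exists_is_const_of_deriv_eq_zero isPreconnected_Ioo
    (fun q hq => (hder q hq).differentiableAt.differentiableWithinAt)
    (fun q hq => (hder q hq).deriv)
  refine ⟨c, ?_⟩
  have hAB : ∀ t ∈ Ioo (low A) (high A), t - c ∈ Ioo (low B) (high B) ∧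
      volume.real (slice A t) = volume.real (slice B (t - c)) := by
    intro t ht
    have hm := mass_strictMonoOn hAc h.convA hVA
    have hq : mass A t ∈ Ioo 0 V := by
      constructor
      · rw [← mass_low hAc h.convA hVA]
        exact hm ⟨le_rfl, (low_lt_high hAc h.convA hVA).le⟩ (Ioo_subset_Icc_self ht) ht.1
      · show mass A t < volume.real A
        rw [← mass_high hAc h.convA hVA]
        exact hm (Ioo_subset_Icc_self ht) ⟨(low_lt_high hAc h.convA hVA).le, le_rfl⟩ ht.2
    have h1 := hc _ hq
    simp only [quantile_mass hAc h.convA hVA ht] at h1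
    have h2 := h.slice_eq hq
    rw [quantile_mass hAc h.convA hVA ht] at h2
    have h3 : quantile B (mass A t) = t - c := by linarith
    rw [h3] at h2
    exact ⟨h3 ▸ (quantile_spec hBc h.convB hVB (h.vol_eq ▸ hq)).1, h2⟩
  have hBA : ∀ t ∈ Ioo (low B) (high B), t + c ∈ Ioo (low A) (high A) := by
    intro t ht
    have hm := mass_strictMonoOn hBc h.convB hVB
    have hq : mass B t ∈ Ioo 0 V := by
      constructor
      · rw [← mass_low hBc h.convB hVB]
        exact hm ⟨le_rfl, (low_lt_high hBc h.convB hVB).le⟩ (Ioo_subset_Icc_self ht) ht.1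
      · show mass B t < volume.real A
        rw [h.vol_eq, ← mass_high hBc h.convB hVB]
        exact hm (Ioo_subset_Icc_self ht) ⟨(low_lt_high hBc h.convB hVB).le, le_rfl⟩ ht.2
    have h1 := hc _ hq
    simp only [quantile_mass hBc h.convB hVB ht] at h1
    rw [← show quantile A (mass B t) = t + c by linarith]
    exact (quantile_spec hAc h.convA hVA hq).1
  have hi : Ioo (low A) (high A) = Ioo (low B + c) (high B + c) := by
    ext t
    constructor
    · intro ht; obtain ⟨⟨l, r⟩, -⟩ := hAB t ht; constructor <;> linarith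
    · intro ht
      have := hBA (t - c) ⟨by linarith [ht.1], by linarith [ht.2]⟩
      rwa [sub_add_cancel] at this
  obtain ⟨e1, e2⟩ := Ioo_subset_Ioo_iff (low_lt_high hAc h.convA hVA) |>.1 hi.subset
  obtain ⟨e3, e4⟩ := Ioo_subset_Ioo_iff (add_lt_add_left (low_lt_high hBc h.convB hVB) c) |>.1 hi.symm.subset
  exact ⟨le_antisymm e3 e1, le_antisymm e2 e4, fun t ht => (hAB t ht).2⟩

/-- The first moment of the heights. -/
lemma setIntegral_hd {C : Set (E (n + 1))} (hC : IsCompact C) :
    ∫ x in C, hd x = ∫ t, t * volume.real (slice C t) := by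
  set T : Set (ℝ × E n) := {p | cons p.1 p.2 ∈ C} with hT
  have hTm : MeasurableSet T := hC.measurableSet.preimage continuous_cons.measurable
  have hpre : (fun x : E (n + 1) => (hd x, tl x)) ⁻¹' T = C := by
    ext x; simp [hT]
  have hTc : IsCompact T := by
    have : T = (fun x : E (n + 1) => (hd x, tl x)) '' C := by
      ext p
      exact ⟨fun hp => ⟨_, hp, by simp⟩, by rintro ⟨x, hx, rfl⟩; simpa [hT] using hx⟩
    rw [this]
    exact hC.image (hd.continuous.prodMk tl.continuous)
  have hint : Integrable (T.indicator fun p => p.1) (volume.prod volume) :=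
    ((continuous_fst.continuousOn).integrableOn_compact hTc).integrable_indicator hTm
  have hemb : MeasurableEmbedding (fun x : E (n + 1) => (hd x, tl x)) :=
    (LinearMap.isClosedEmbedding_of_injective
      (f := LinearMap.prod (hd (n := n)).toLinearMap (tl (n := n)).toLinearMap)
      (LinearMap.ker_eq_bot.2 (fun x y hxy => by
        have h' : (hd x, tl x) = (hd y, tl y) := hxy
        rw [← cons_hd_tl x, ← cons_hd_tl y, (Prod.mk.inj h').1, (Prod.mk.inj h').2]))).measurableEmbedding
  conv_lhs => rw [← hpre]
  rw [measurePreserving_split.setIntegral_preimage_emb hemb (fun p : ℝ × E n => p.1) T,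
    ← integral_indicator hTm, integral_prod _ hint]
  congr 1
  funext t
  rw [show (fun y => T.indicator (fun p => p.1) (t, y)) = (slice C t).indicator (fun _ => t) from by
    funext y; exact (Set.indicator_comp_right (Prod.mk t) (g := fun p : ℝ × E n => p.1) (x := y)).symm,
    integral_indicator (slice_isCompact hC t).measurableSet, setIntegral_const, smul_eq_mul, mul_comm]

/-- An equality pair whose second body is symmetric and whose first is centred has equal heights. -/
lemma EqPair.high_eq {A B : Set (E (n + 1 + 1))} (h : EqPair A B) (hBs : ∀ x ∈ B, -x ∈ B)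
    (hg : ∫ x in A, hd x = 0) : high A = high B := by
  obtain ⟨c, hl, hh, hc⟩ := h.exists_shift
  have hAc := h.compA
  have hBc := h.compB
  set fA := fun t => volume.real (slice A t)
  set fB := fun t => volume.real (slice B t)
  have hae : ∀ᵐ t : ℝ, fA t = fB (t - c) := by
    filter_upwards [Measure.ae_ne volume (low A), Measure.ae_ne volume (high A)] with t h1 h2
    by_cases ht : t ∈ Ioo (low A) (high A)
    · exact hc t ht
    · have ho : t ∉ Icc (low A) (high A) := fun hI =>
        ht ⟨lt_of_le_of_ne hI.1 (Ne.symm h1), lt_of_le_of_ne hI.2 h2⟩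
      have ho' : t - c ∉ Icc (low B) (high B) := fun hI => ho ⟨by linarith [hI.1], by linarith [hI.2]⟩
      simp [fA, fB, slice_empty_outside hAc ho, slice_empty_outside hBc ho', measureReal_def]
  have hodd : ∫ t, t * fB t = 0 := by
    have h1 := integral_neg_eq_self (fun t => t * fB t) volume
    have h2 : ∀ t, -t * fB (-t) = -(t * fB t) := fun t => by
      simp only [fB, slice_neg hBs, neg_mul]
      rw [measureReal_def, Measure.measure_neg, ← measureReal_def]
    simp only [h2, integral_neg] at h1
    linarith
  have hint : Integrable fun t => t * fB t := by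
    refine (integrable_profile hBc).bdd_mul (c := max |low B| |high B|) ?_ ?_ |>.congr ?_ (f := fun t =>
      (Icc (low B) (high B)).indicator id t * fB t)
    · exact (measurable_id.indicator measurableSet_Icc).aestronglyMeasurable
    · refine Filter.Eventually.of_forall fun t => ?_
      by_cases ht : t ∈ Icc (low B) (high B)
      · rw [indicator_of_mem ht]; exact abs_le_max_abs_abs ht.1 ht.2
      · rw [indicator_of_notMem ht]; simp
    · refine Filter.Eventually.of_forall fun t => ?_
      by_cases ht : t ∈ Icc (low B) (high B)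
      · simp [indicator_of_mem ht]
      · simp [fB, slice_empty_outside hBc ht, measureReal_def]
  have hmom : ∫ t, t * fA t = c * volume.real B := by
    rw [integral_congr_ae (g := fun t => ((t - c) + c) * fB (t - c))
      (hae.mono fun t ht => by simp [ht]),
      integral_sub_right_eq_self (fun t => (t + c) * fB t) c]
    simp only [add_mul]
    rw [integral_add hint ((integrable_profile hBc).const_mul c), hodd, zero_add, integral_const_mul,
      ← volume_eq_integral hBc]
  rw [setIntegral_hd hAc, hmom] at hg
  have hc0 : c = 0 := (mul_eq_zero.1 hg).resolve_right (h.vol_eq ▸ h.pos).ne'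
  rw [hh, hc0, add_zero]

/-- A closed convex set is determined by its support function. -/
lemma subset_of_supp_le {m : ℕ} {A B : Set (E m)} (hA : IsCompact A) (hB : IsCompact B)
    (hBv : Convex ℝ B) (h0 : B.Nonempty) (h : ∀ v : E m, ‖v‖ = 1 → supp A v ≤ supp B v) : A ⊆ B := by
  intro x hx
  by_contra hxB
  obtain ⟨f, u, hu, hux⟩ := geometric_hahn_banach_closed_point hBv hB.isClosed hxB
  set w := (InnerProductSpace.toDual ℝ (E m)).symm f
  have hw : ∀ y, ⟪y, w⟫ = f y := fun y => by
    rw [real_inner_comm, InnerProductSpace.toDual_symm_apply]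
  obtain ⟨z, hz⟩ := h0
  have hw0 : w ≠ 0 := by
    intro h
    have h1 := hw x; have h2 := hw z
    rw [h, inner_zero_right] at h1 h2
    linarith [hu z hz]
  have hn : 0 < ‖w‖ := norm_pos_iff.2 hw0
  set v := ‖w‖⁻¹ • w
  have h1 := (le_supp hA v hx).trans (h v (norm_smul_inv_norm (𝕜 := ℝ) hw0))
  have h2 : supp B v ≤ ‖w‖⁻¹ * u := csSup_le ((Set.nonempty_of_mem hz).image _) (by
    rintro _ ⟨y, hy, rfl⟩
    show ⟪y, ‖w‖⁻¹ • w⟫ ≤ _
    rw [real_inner_smul_right, hw]
    exact mul_le_mul_of_nonneg_left (hu y hy).le (by positivity))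
  have h3 : ⟪x, ‖w‖⁻¹ • w⟫ = ‖w‖⁻¹ * f x := by rw [real_inner_smul_right, hw]
  have h4 := mul_lt_mul_of_pos_left hux (inv_pos.2 hn)
  change ⟪x, ‖w‖⁻¹ • w⟫ ≤ _ at h1
  linarith

/-- Equality in Brunn–Minkowski with a symmetric body: the other body is a translate of it. -/
theorem bm_eq_translate {A B : Set (E (n + 1 + 1))} (hA : IsBody A) (hB : IsBody B)
    (hBs : ∀ x ∈ B, -x ∈ B) (hv : volume.real A = volume.real B)
    (heq : volume.real (A + B) ≤ 2 ^ (n + 1 + 1) * volume.real A) :
    ∃ g : E (n + 1 + 1), (fun x => g + x) '' A = B := by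
  have hV := hA.volume_pos
  set g := -((volume.real A)⁻¹ • ∫ x in A, x) with hg
  refine ⟨g, ?_⟩
  set A₀ := (fun x => g + x) '' A with hA₀
  have hA₀c : IsCompact A₀ := hA.compact.image (by fun_prop)
  have hA₀v : Convex ℝ A₀ := hA.convex.translate g
  have hvol₀ : volume.real A₀ = volume.real A := by
    rw [hA₀, image_add_left, measureReal_def, measure_preimage_add, ← measureReal_def]
  have hcen : ∫ x in A₀, x = 0 := by
    rw [hA₀, (measurePreserving_add_left volume g).setIntegral_image_emb
      (MeasurableEquiv.addLeft g).measurableEmbedding,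
      integral_add (f := fun _ : E (n + 1 + 1) => g) (g := fun x : E (n + 1 + 1) => x)
        (continuous_const.continuousOn.integrableOn_compact hA.compact)
        (continuous_id.continuousOn.integrableOn_compact hA.compact), setIntegral_const]
    simp only [g, smul_neg, smul_smul, mul_inv_cancel₀ hV.ne', one_smul, id, neg_add_cancel]
  have hsum : volume.real (A₀ + B) = volume.real (A + B) := by
    have : A₀ + B = (fun x => g + x) '' (A + B) := by
      ext z
      constructor
      · rintro ⟨_, ⟨x, hx, rfl⟩, y, hy, rfl⟩; exact ⟨x + y, Set.add_mem_add hx hy, by simp [add_assoc]⟩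
      · rintro ⟨_, ⟨x, hx, y, hy, rfl⟩, rfl⟩; exact ⟨g + x, ⟨x, hx, rfl⟩, y, hy, by simp [add_assoc]⟩
    rw [this, image_add_left, measureReal_def, measure_preimage_add, ← measureReal_def]
  have key : ∀ v : E (n + 1 + 1), ‖v‖ = 1 → supp A₀ v = supp B v := by
    intro v hv'
    obtain ⟨L, hL⟩ := exists_frame hv'
    have hpair : EqPair (L '' A₀) (L '' B) :=
      ⟨hA₀c.image L.continuous, hB.compact.image L.continuous,
        hA₀v.linear_image L.toLinearEquiv.toLinearMap, hB.convex.linear_image L.toLinearEquiv.toLinearMap,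
        by rw [volume_real_image, hvol₀]; exact hV,
        by rw [volume_real_image, volume_real_image, hvol₀, hv],
        by rw [← (Set.image_add L), volume_real_image, volume_real_image, hsum, hvol₀]; exact heq⟩
    have hh := hpair.high_eq (by rintro _ ⟨x, hx, rfl⟩; exact ⟨-x, hBs x hx, map_neg L x⟩) (by
      rw [L.measurePreserving.setIntegral_image_emb L.toHomeomorph.toMeasurableEquiv.measurableEmbedding]
      simp only [exists_isometry_slice hL]
      have : ∫ x in A₀, ⟪v, x⟫ = ⟪v, ∫ x in A₀, x⟫ :=
        integral_inner (continuous_id.continuousOn.integrableOn_compact hA₀c) v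
      simp only [real_inner_comm v] at this ⊢
      rw [this, hcen]; simp)
    have hs : ∀ C : Set (E (n + 1 + 1)), high (L '' C) = supp C v := fun C => by
      rw [high, image_image, supp]
      exact congrArg sSup (image_congr fun x _ => exists_isometry_slice hL x)
    rwa [hs, hs] at hh
  exact Subset.antisymm
    (subset_of_supp_le hA₀c hB.compact hB.convex (hB.nonempty.mono interior_subset)
      fun v hv' => (key v hv').le)
    (subset_of_supp_le hB.compact hA₀c hA₀v ((hA.nonempty.mono interior_subset).image _)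
      fun v hv' => (key v hv').ge)

end Vale.Agent.P237.Sharp
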