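import Mathlib
import Vale.Agent.P237.Sharp.Fixed
import Vale.Agent.P237.Sharp.Translate

/-!
# P237, sharp route: every minimiser is a translate of a symmetric one
-/

open MeasureTheory Set Real
open scoped Pointwise RealInnerProductSpace

namespace Vale.Agent.P237.Sharp

variable {n : ℕ}

lemma isMin_translate {K : Set (E (n + 1))} (hK : IsMin K) (z : E (n + 1)) :
    IsMin ((fun x => z + x) '' K) := by
  refine ⟨⟨hK.1.compact.image (by fun_prop), hK.1.convex.translate z, ?_⟩, fun L hL => ?_⟩
  · obtain ⟨x, hx⟩ := hK.1.nonempty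
    refine ⟨z + x, ?_⟩
    have := (Homeomorph.addLeft z).image_interior K
    have hmem : z + x ∈ (Homeomorph.addLeft z) '' interior K := ⟨x, hx, rfl⟩
    rw [this] at hmem
    exact hmem
  · rw [ratio_translate]; exact hK.2 L hL

/-- Every minimiser is centrally symmetric about some point, and fixed by `Π²` up to scale. -/
theorem isMin_exists_symm {K : Set (E (n + 1 + 1))} (hK : IsMin K) :
    ∃ z : E (n + 1 + 1), IsMin ((fun x => z + x) '' K) ∧
      (∀ x ∈ (fun x => z + x) '' K, -x ∈ (fun x => z + x) '' K) ∧
      projBody (projBody K) = (volume.real (projBody K) / volume.real K) • ((fun x => z + x) '' K) := by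
  obtain ⟨p, hp⟩ := hK.1.nonempty
  have hK₀ := isMin_translate hK (-p)
  have h0 : (0 : E (n + 1 + 1)) ∈ interior ((fun x => -p + x) '' K) := by
    have := (Homeomorph.addLeft (-p)).image_interior K
    have hmem : (0 : E (n + 1 + 1)) ∈ (Homeomorph.addLeft (-p)) '' interior K :=
      ⟨p, hp, by simp [Homeomorph.addLeft]⟩
    rw [this] at hmem
    exact hmem
  obtain ⟨hB, hBs, hv, hle⟩ := isMin_equality hK₀ h0
  obtain ⟨g, hg⟩ := bm_eq_translate hK₀.1 hB hBs hv hle
  have hcomp : (fun x => g + x) '' ((fun x => -p + x) '' K) = (fun x => (g + -p) + x) '' K := by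
    rw [image_image]; exact image_congr fun x _ => (add_assoc g (-p) x).symm
  rw [hcomp] at hg
  refine ⟨g + -p, isMin_translate hK _, by rw [hg]; exact hBs, ?_⟩
  have hsym : ∀ x ∈ (fun x => (g + -p) + x) '' K, -x ∈ (fun x => (g + -p) + x) '' K := by
    rw [hg]; exact hBs
  have := isMin_fixed (isMin_translate hK (g + -p)) hsym
  rw [projBody_translate, image_add_left, measureReal_def (s := _ ⁻¹' K), measure_preimage_add,
    ← measureReal_def, ← image_add_left] at this
  exact this

end Vale.Agent.P237.Sharp
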