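import Mathlib
import Vale.Agent.P237.Sharp.Defs

/-!
# P237, sharp route: `Π(TK) = |det T| T⁻ᵗ ΠK`
-/

open MeasureTheory Set Real Filter Topology
open scoped Pointwise RealInnerProductSpace

namespace Vale.Agent.P237.Sharp

variable {n : ℕ}

lemma norm_unit {m : ℕ} {u : E m} (hu : u ≠ 0) : ‖‖u‖⁻¹ • u‖ = 1 := by
  rw [norm_smul, norm_inv, norm_norm, inv_mul_cancel₀ (norm_ne_zero_iff.2 hu)]

/-- The segment from `-u` to `u`. -/
def seg {m : ℕ} (u : E m) : Set (E m) := (fun s : ℝ => s • u) '' Icc (-1) 1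

lemma seg_image {m k : ℕ} (f : E m →ₗ[ℝ] E k) (u : E m) : f '' seg u = seg (f u) := by
  rw [seg, seg, image_image]
  exact image_congr fun s _ => map_smul f s u

lemma seg_isCompact {m : ℕ} (u : E m) : IsCompact (seg u) :=
  isCompact_Icc.image (by fun_prop)

lemma seg_convex {m : ℕ} (u : E m) : Convex ℝ (seg u) :=
  (convex_Icc _ _).linear_image (LinearMap.toSpanSingleton ℝ (E m) u)

/-- Adding a vertical segment adds the shadow. -/
lemma volume_add_seg_e0 {C : Set (E (n + 1))} (hC : IsCompact C) (hCv : Convex ℝ C) {r : ℝ}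
    (hr : 0 ≤ r) :
    volume.real (C + seg (r • e0)) = volume.real C + 2 * r * volume.real (tl '' C) := by
  set C' := C + seg (r • e0)
  have hC' : IsCompact C' := hC.add (seg_isCompact _)
  have hCv' : Convex ℝ C' := hCv.add (seg_convex _)
  have hr2 : (2 * r) / 2 = r := by ring
  have hsh : tl '' C' = tl '' C := by
    ext y
    constructor
    · rintro ⟨_, ⟨x, hx, _, ⟨s, -, rfl⟩, rfl⟩, rfl⟩
      exact ⟨x, hx, by simp [e0_eq, smul_cons]⟩
    · rintro ⟨x, hx, rfl⟩
      refine ⟨x + 0, Set.add_mem_add hx ⟨0, by norm_num, by simp⟩, by simp⟩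
  have hge := volume_gain hC hCv hC'.measurableSet (δ := 2 * r) (by linarith) fun x hx s hs => by
    rw [hr2] at hs
    refine Set.add_mem_add hx ?_
    rcases hr.eq_or_lt with h | h
    · have : s = 0 := abs_eq_zero.1 (le_antisymm (hs.trans h.ge) (abs_nonneg s))
      exact ⟨0, by norm_num, by simp [this]⟩
    · exact ⟨s / r, abs_le.1 (by rw [abs_div, abs_of_pos h]; exact (div_le_one h).2 hs),
        by simp only [smul_smul, div_mul_cancel₀ _ h.ne']⟩
  have hle := volume_loss hC' hCv' hC.measurableSet (δ := 2 * r) (by linarith) (fun x h1 h2 => by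
    rw [hr2] at h1 h2
    obtain ⟨c1, hc1, _, ⟨s, hs, rfl⟩, e1⟩ := h1
    obtain ⟨c2, hc2, _, ⟨t, ht, rfl⟩, e2⟩ := h2
    set α := r * (1 - s)
    set β := r * (1 + t)
    have hα : 0 ≤ α := mul_nonneg hr (by linarith [hs.2])
    have hβ : 0 ≤ β := mul_nonneg hr (by linarith [ht.1])
    have x1 : c1 = x + α • e0 := by
      rw [eq_sub_of_add_eq e1]
      simp only [α, mul_sub, mul_one, sub_smul, smul_smul, mul_comm r s]
      abel
    have x2 : c2 = x - β • e0 := by
      rw [eq_sub_of_add_eq e2]
      simp only [β, mul_add, mul_one, add_smul, smul_smul, mul_comm r t]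
      abel
    rcases (add_nonneg hα hβ).eq_or_lt with h | h
    · have : α = 0 := by linarith
      rw [x1, this, zero_smul, add_zero] at hc1
      exact hc1
    · have : x = (β / (α + β)) • c1 + (α / (α + β)) • c2 := by
        rw [x1, x2, smul_add, smul_sub, smul_smul, smul_smul]
        have e3 : (β / (α + β) + α / (α + β)) • x = x := by
          rw [← add_div, add_comm β, div_self h.ne', one_smul]
        conv_lhs => rw [← e3]
        rw [add_smul, div_mul_eq_mul_div, div_mul_eq_mul_div, mul_comm β α]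
        abel
      rw [this]
      exact hCv hc1 hc2 (by positivity) (by positivity) (by rw [← add_div, add_comm β, div_self h.ne']))
  rw [hsh] at hle
  have := le_antisymm hle hge
  rw [measureReal_def, this, ENNReal.toReal_add hC.measure_lt_top.ne
    (ENNReal.mul_ne_top ENNReal.ofReal_ne_top (hC.image tl.continuous).measure_lt_top.ne),
    ENNReal.toReal_mul, ENNReal.toReal_ofReal (by linarith)]
  rfl

/-- `|K + [-u,u]| = |K| + 2|u| · shadow`. -/
lemma volume_add_seg {K : Set (E (n + 1))} (hK : IsCompact K) (hKv : Convex ℝ K) {u : E (n + 1)}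
    (hu : u ≠ 0) :
    volume.real (K + seg u) =
      volume.real K + 2 * ‖u‖ * projArea K (‖u‖⁻¹ • u) := by
  obtain ⟨L, hL⟩ := exists_frame (norm_unit hu)
  have hLu : L u = ‖u‖ • e0 := by
    have h : u = ‖u‖ • (‖u‖⁻¹ • u) := by rw [smul_inv_smul₀ (norm_ne_zero_iff.2 hu)]
    conv_lhs => rw [h]
    rw [map_smul]; exact congrArg _ hL
  have himg : L '' (K + seg u) = L '' K + seg (‖u‖ • e0) := by
    have h := seg_image L.toLinearEquiv.toLinearMap u
    change L '' seg u = seg (L u) at h
    rw [← hLu, ← h]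
    exact Set.image_add L
  rw [← volume_real_image L (K + seg u), himg,
    volume_add_seg_e0 (hK.image L.continuous) (hKv.linear_image L.toLinearEquiv.toLinearMap)
      (norm_nonneg u), volume_real_image, projArea_frame (norm_unit hu) L hL]

/-- Projection areas of linear images. -/
lemma projArea_linear {K : Set (E (n + 1))} (hK : IsCompact K) (hKv : Convex ℝ K)
    (T : E (n + 1) ≃ₗ[ℝ] E (n + 1)) {w : E (n + 1)} (hw : ‖w‖ = 1) :
    ‖T w‖ * projArea (T '' K) (‖T w‖⁻¹ • T w) =
      |LinearMap.det T.toLinearMap| * projArea K w := by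
  have hw0 : w ≠ 0 := by intro h; simp [h] at hw
  have hTw : T w ≠ 0 := fun h => hw0 (T.map_eq_zero_iff.1 h)
  have hvol : ∀ S : Set (E (n + 1)),
      volume.real (T '' S) = |LinearMap.det T.toLinearMap| * volume.real S := by
    intro S
    rw [measureReal_def, measureReal_def]
    show (volume (T.toLinearMap '' S)).toReal = _
    rw [Measure.addHaar_image_linearMap, ENNReal.toReal_mul, ENNReal.toReal_ofReal (abs_nonneg _)]
  have himg : T '' (K + seg w) = T '' K + seg (T w) := by
    have h := seg_image T.toLinearMap w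
    change T '' seg w = seg (T w) at h
    rw [← h]
    exact Set.image_add T
  have h1 := volume_add_seg (hK.image T.toContinuousLinearEquiv.continuous)
    (hKv.linear_image T.toLinearMap) hTw
  change volume.real (T '' K + seg (T w)) = _ at h1
  rw [← himg, hvol, volume_add_seg hK hKv hw0, hw, inv_one, one_smul] at h1
  change _ = volume.real (T '' K) + 2 * ‖T w‖ * projArea (T '' K) _ at h1
  rw [hvol] at h1
  linarith

/-- Equivariance of the projection body. -/
lemma projBody_linear {K : Set (E (n + 1))} (hK : IsCompact K) (hKv : Convex ℝ K)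
    (T : E (n + 1) ≃ₗ[ℝ] E (n + 1)) :
    projBody (T '' K) = (|LinearMap.det T.toLinearMap|⁻¹ •
      LinearMap.adjoint T.toLinearMap) ⁻¹' projBody K := by
  have hdet : 0 < |LinearMap.det T.toLinearMap| := abs_pos.2 T.isUnit_det'.ne_zero
  ext x
  constructor
  · intro hx w hw
    have hw0 : w ≠ 0 := by intro h; simp [h] at hw
    have hTw : 0 < ‖T w‖ := norm_pos_iff.2 fun h => hw0 (T.map_eq_zero_iff.1 h)
    have := hx _ (norm_unit (norm_pos_iff.1 hTw))
    rw [real_inner_smul_right, inv_mul_le_iff₀ hTw] at this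
    change ⟪x, T w⟫ ≤ ‖T w‖ * projArea (T '' K) (‖T w‖⁻¹ • T w) at this
    rw [projArea_linear hK hKv T hw] at this
    rw [LinearMap.smul_apply, real_inner_smul_left, LinearMap.adjoint_inner_left, inv_mul_le_iff₀ hdet]
    exact this
  · intro hx u hu
    have hu0 : u ≠ 0 := by intro h; simp [h] at hu
    have hw0 : T.symm u ≠ 0 := fun h => hu0 (T.symm.map_eq_zero_iff.1 h)
    set r := ‖T.symm u‖
    have hr : 0 < r := norm_pos_iff.2 hw0
    set w := r⁻¹ • T.symm u with hwdef
    have hTw : T w = r⁻¹ • u := by rw [hwdef, map_smul, T.apply_symm_apply]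
    have hn : ‖T w‖ = r⁻¹ := by rw [hTw, norm_smul, hu, mul_one, norm_inv, norm_norm]
    have hxw := hx w (norm_unit hw0)
    rw [LinearMap.smul_apply, real_inner_smul_left, LinearMap.adjoint_inner_left,
      inv_mul_le_iff₀ hdet] at hxw
    change ⟪x, T w⟫ ≤ _ at hxw
    rw [← projArea_linear hK hKv T (norm_unit hw0), hn, hTw, inv_inv,
      smul_inv_smul₀ hr.ne', real_inner_smul_right] at hxw
    exact le_of_mul_le_mul_left hxw (inv_pos.2 hr)

lemma ratio_linear {K : Set (E (n + 1))} (hK : IsCompact K) (hKv : Convex ℝ K)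
    (T : E (n + 1) ≃ₗ[ℝ] E (n + 1)) : ratio (T '' K) = ratio K := by
  set d := |LinearMap.det T.toLinearMap|
  have hd : 0 < d := abs_pos.2 T.isUnit_det'.ne_zero
  have hadj : |LinearMap.det (LinearMap.adjoint T.toLinearMap)| = d := by
    set b := EuclideanSpace.basisFun (Fin (n + 1)) ℝ
    rw [← LinearMap.det_toMatrix b.toBasis, LinearMap.toMatrix_adjoint b b,
      Matrix.det_conjTranspose, LinearMap.det_toMatrix, star_trivial]
  set G := d⁻¹ • LinearMap.adjoint T.toLinearMap with hG
  have hGdet : |LinearMap.det G| = (d⁻¹) ^ n := by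
    rw [hG, LinearMap.det_smul, abs_mul, hadj, finrank_euclideanSpace_fin, abs_pow, abs_inv,
      abs_of_pos hd, pow_succ, mul_assoc, inv_mul_cancel₀ hd.ne', mul_one]
  have hne : LinearMap.det G ≠ 0 := by
    intro h; rw [h, abs_zero] at hGdet; exact absurd hGdet.symm (pow_ne_zero _ (inv_ne_zero hd.ne'))
  have hvolK : volume.real (T '' K) = d * volume.real K := by
    show (volume (T.toLinearMap '' K)).toReal = _
    rw [Measure.addHaar_image_linearMap, ENNReal.toReal_mul, ENNReal.toReal_ofReal (abs_nonneg _)]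
    rfl
  rw [ratio, ratio, projBody_linear hK hKv T, hvolK, measureReal_def,
    Measure.addHaar_preimage_linearMap volume hne, ENNReal.toReal_mul,
    ENNReal.toReal_ofReal (abs_nonneg _), abs_inv, hGdet, mul_pow, ← inv_pow, inv_inv,
    mul_div_mul_left _ _ (pow_ne_zero _ hd.ne')]
  rfl

end Vale.Agent.P237.Sharp
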