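import Mathlib
import Vale.Agent.P237.Sharp.Defs
import Vale.Agent.P237.Sharp.Linear

/-!
# P237, sharp route: existence of a symmetric minimiser
-/

open MeasureTheory Set Real Filter Topology TopologicalSpace
open scoped Pointwise RealInnerProductSpace Matrix

namespace Vale.Agent.P237.Sharp

variable {n : ℕ}

/-- Auerbach position of a symmetric body. -/
lemma exists_auerbach {K : Set (E (n + 1))} (hK : IsBody K) (hsym : ∀ x ∈ K, -x ∈ K) :
    ∃ T : E (n + 1) ≃ₗ[ℝ] E (n + 1),
      Metric.closedBall 0 (1 / ((n:ℝ) + 1)) ⊆ T '' K ∧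
        T '' K ⊆ Metric.closedBall 0 ((n:ℝ) + 1) := by
  classical
  set F : (Fin (n + 1) → E (n + 1)) → ℝ := fun x => |Matrix.det (Matrix.of fun i j => x j i)| with hF
  have hFc : Continuous F := by
    refine continuous_abs.comp (Continuous.matrix_det ?_)
    refine continuous_matrix fun i j => ?_
    show Continuous fun x : Fin (n + 1) → E (n + 1) => x j i
    exact (EuclideanSpace.proj (𝕜 := ℝ) i).continuous.comp (continuous_apply j)
  have hKne : K.Nonempty := hK.nonempty.mono interior_subset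
  obtain ⟨x, hx, hmax⟩ := (isCompact_univ_pi fun _ : Fin (n + 1) => hK.compact).exists_isMaxOn
    (univ_pi_nonempty_iff.2 fun _ => hKne) hFc.continuousOn
  set A : Matrix (Fin (n + 1)) (Fin (n + 1)) ℝ := Matrix.of fun i j => x j i with hA
  have hdet : A.det ≠ 0 := by
    obtain ⟨r, hr, hball⟩ := Metric.isOpen_iff.1 isOpen_interior 0 (zero_mem_interior hK hsym)
    have hy : (fun j : Fin (n + 1) => (r / 2) • EuclideanSpace.single j (1:ℝ)) ∈
        univ.pi fun _ : Fin (n + 1) => K := fun j _ => interior_subset (hball (by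
      rw [mem_ball_zero_iff, norm_smul, Real.norm_of_nonneg (by linarith), PiLp.norm_single]
      simp; linarith))
    have := hmax hy
    simp only [hF, mem_ofPred_eq] at this
    rw [show (Matrix.of fun i j => ((r / 2) • EuclideanSpace.single j (1:ℝ)) i) =
        Matrix.diagonal (fun _ : Fin (n + 1) => r / 2) from by
      ext i j; by_cases h : i = j <;> simp [h], Matrix.det_diagonal] at this
    intro h
    rw [← hA, h, abs_zero, Finset.prod_const, Finset.card_univ, Fintype.card_fin] at this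
    exact (pow_pos (half_pos hr) (n + 1)).ne' (abs_nonpos_iff.1 this)
  set f : E (n + 1) →ₗ[ℝ] E (n + 1) :=
    { toFun := fun c => ∑ j, c j • x j
      map_add' := fun a b => by simp [add_smul, Finset.sum_add_distrib]
      map_smul' := fun a b => by simp [Finset.smul_sum, smul_smul] } with hf
  have hfA : ∀ c : E (n + 1), (f c).ofLp = A *ᵥ c.ofLp := by
    intro c
    ext i
    simp [hf, hA, Matrix.mulVec, dotProduct, mul_comm]
  have hinjA : Function.Injective (fun v => A *ᵥ v) :=
    Matrix.mulVec_injective_iff_isUnit.2 ((Matrix.isUnit_iff_isUnit_det A).2 (isUnit_iff_ne_zero.2 hdet))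
  have hinj : Function.Injective f := fun a b hab =>
    WithLp.ofLp_injective 2 (hinjA (by simp only [← hfA, hab]))
  set S := LinearEquiv.ofInjectiveEndo f hinj
  refine ⟨S.symm, fun c hc => ?_, ?_⟩
  · rw [mem_closedBall_zero_iff] at hc
    refine ⟨S c, ?_, S.symm_apply_apply c⟩
    show ∑ j, c j • x j ∈ K
    set s := ∑ j, |c j| with hs
    have hs1 : s ≤ 1 := by
      have : s ≤ ((n:ℝ) + 1) * ‖c‖ := by
        refine (Finset.sum_le_sum fun j _ => PiLp.norm_apply_le c j).trans_eq ?_
        simp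
      refine this.trans ?_
      rw [le_div_iff₀ (by positivity), mul_comm] at hc
      exact hc
    rcases (Finset.sum_nonneg fun j (_ : j ∈ Finset.univ) => abs_nonneg (c j)).eq_or_lt with h | h
    · have h0 : ∀ j, c j = 0 := fun j => abs_eq_zero.1
        ((Finset.sum_eq_zero_iff_of_nonneg fun j _ => abs_nonneg (c j)).1 h.symm j (Finset.mem_univ j))
      simp only [h0, zero_smul, Finset.sum_const_zero]
      exact zero_mem_of_symm hK.convex hsym hKne
    · have key : ∑ j, (|c j| / s) • (if 0 ≤ c j then x j else -x j) ∈ K :=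
        hK.convex.sum_mem (fun j _ => div_nonneg (abs_nonneg _) h.le)
          (by rw [← Finset.sum_div, div_self h.ne']) (fun j _ => by
            split_ifs
            · exact hx j (mem_univ j)
            · exact hsym _ (hx j (mem_univ j)))
      have : ∑ j, c j • x j = s • ∑ j, (|c j| / s) • (if 0 ≤ c j then x j else -x j) := by
        rw [Finset.smul_sum]
        refine Finset.sum_congr rfl fun j _ => ?_
        rw [smul_smul, mul_div_cancel₀ _ h.ne']
        split_ifs with hj
        · rw [abs_of_nonneg hj]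
        · rw [abs_of_neg (not_le.1 hj), neg_smul, smul_neg, neg_neg]
      rw [this]
      exact hK.convex.smul_mem_of_zero_mem (zero_mem_of_symm hK.convex hsym hKne) key ⟨h.le, hs1⟩
  · rintro _ ⟨y, hy, rfl⟩
    rw [mem_closedBall_zero_iff]
    set c := S.symm y
    have hc : A *ᵥ c.ofLp = y.ofLp := by
      rw [← hfA]; exact congrArg _ (S.apply_symm_apply y)
    have hci : ∀ i, |c i| ≤ 1 := by
      intro i
      have h1 : Matrix.cramer A y.ofLp = A.det • c.ofLp :=
        hinjA (by simp only [Matrix.mulVec_cramer, Matrix.mulVec_smul, hc])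
      have h2 : (A.updateCol i y.ofLp).det = A.det * c i := by
        rw [← Matrix.cramer_apply, h1]; rfl
      have hy' : Function.update x i y ∈ univ.pi fun _ : Fin (n + 1) => K := fun j _ => by
        by_cases h : j = i
        · subst h; rw [Function.update_self]; exact hy
        · rw [Function.update_of_ne h]; exact hx j (mem_univ j)
      have h3 := hmax hy'
      simp only [hF, mem_ofPred_eq] at h3
      rw [show (Matrix.of fun k j => Function.update x i y j k) = A.updateCol i y.ofLp from by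
        ext k j; by_cases h : j = i <;> simp [h, hA, Matrix.updateCol_apply], h2, abs_mul, ← hA] at h3
      exact le_of_mul_le_mul_left (h3.trans_eq (mul_one _).symm) (abs_pos.2 hdet)
    calc ‖c‖ = ‖∑ i, c i • EuclideanSpace.single i (1:ℝ)‖ := by
          congr 1; ext j; simp [Pi.single_apply]
      _ ≤ ∑ i, ‖c i • EuclideanSpace.single i (1:ℝ)‖ := norm_sum_le _ _
      _ ≤ ∑ _i : Fin (n + 1), (1:ℝ) := Finset.sum_le_sum fun i _ => by
          rw [norm_smul, PiLp.norm_single, norm_one, mul_one]; exact hci i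
      _ = _ := by simp

/-- A convex set containing a ball swallows its `ε`-neighbourhood after scaling. -/
lemma subset_smul_of_close {A X : Set (E n)} (hA : Convex ℝ A) {r ε : ℝ} (hr : 0 < r) (hε : 0 < ε)
    (hb : Metric.closedBall 0 r ⊆ A) (h : ∀ x ∈ X, ∃ y ∈ A, dist x y ≤ ε) :
    X ⊆ (1 + ε / r) • A := by
  intro x hx
  obtain ⟨y, hy, hxy⟩ := h x hx
  have hs : 0 < ε / r := div_pos hε hr
  have hz : (ε / r)⁻¹ • (x - y) ∈ A := hb (by
    rw [mem_closedBall_zero_iff, norm_smul, norm_inv, Real.norm_of_nonneg hs.le, ← dist_eq_norm,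
      inv_mul_le_iff₀ hs, div_mul_cancel₀ _ hr.ne']
    exact hxy)
  refine ⟨(1 / (1 + ε / r)) • y + ((ε / r) / (1 + ε / r)) • ((ε / r)⁻¹ • (x - y)),
    hA hy hz (by positivity) (by positivity) (by rw [← add_div, div_self (by positivity)]), ?_⟩
  show (1 + ε / r) • _ = x
  rw [smul_add, smul_smul, smul_smul, smul_smul, mul_div_cancel₀ _ (by positivity),
    mul_div_cancel₀ _ (by positivity), mul_inv_cancel₀ hs.ne', one_smul, one_smul]
  abel

lemma ratio_le_of_sandwich {K L : Set (E (n + 1))} (hK : IsBody K) (hL : IsBody L) {s : ℝ}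
    (hs : 0 < s) (h1 : L ⊆ s • K) (h2 : K ⊆ s • L) :
    ratio L ≤ s ^ (2 * n * (n + 1)) * ratio K := by
  have hP : volume.real (projBody L) ≤ (s ^ n) ^ (n + 1) * volume.real (projBody K) := by
    rw [← volume_real_smul _ (pow_nonneg hs.le n)]
    exact measureReal_mono (projBody_subset_smul hK.compact hs h1)
      ((projBody_isCompact K).smul _).measure_lt_top.ne
  have hV : volume.real K ≤ s ^ (n + 1) * volume.real L := by
    rw [← volume_real_smul _ hs.le]
    exact measureReal_mono h2 (hL.compact.smul _).measure_lt_top.ne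
  have hK0 := hK.volume_pos
  have hL0 := hL.volume_pos
  rw [ratio, div_le_iff₀ (pow_pos hL0 n), ratio, mul_div_assoc', div_mul_eq_mul_div,
    le_div_iff₀ (pow_pos hK0 n)]
  calc volume.real (projBody L) * volume.real K ^ n
      ≤ (s ^ n) ^ (n + 1) * volume.real (projBody K) * (s ^ (n + 1) * volume.real L) ^ n :=
        mul_le_mul hP (pow_le_pow_left₀ hK0.le hV n) (by positivity)
          (mul_nonneg (by positivity) measureReal_nonneg)
    _ = _ := by rw [mul_pow, ← pow_mul, ← pow_mul]; ring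

/-- Symmetric minimisers exist. -/
theorem exists_isMin (n : ℕ) : ∃ K : Set (E (n + 1)), IsMin K ∧ ∀ x ∈ K, -x ∈ K := by
  classical
  set r : ℝ := 1 / ((n:ℝ) + 1)
  set R : ℝ := (n:ℝ) + 1
  have hr : 0 < r := by positivity
  set 𝒦 := {t : ℝ | ∃ K : Set (E (n + 1)), IsBody K ∧ (∀ x ∈ K, -x ∈ K) ∧ ratio K = t}
  have hball : IsBody (Metric.closedBall (0 : E (n + 1)) 1) :=
    ⟨isCompact_closedBall _ _, convex_closedBall _ _,
      ⟨0, mem_interior.2 ⟨Metric.ball 0 1, Metric.ball_subset_closedBall, Metric.isOpen_ball,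
        Metric.mem_ball_self one_pos⟩⟩⟩
  have hne : 𝒦.Nonempty := ⟨_, _, hball, fun x hx => by simpa using hx, rfl⟩
  have hbdd : BddBelow 𝒦 := ⟨0, by rintro _ ⟨K, hK, -, rfl⟩; exact (ratio_pos hK).le⟩
  have hseq : ∀ j : ℕ, ∃ K : Set (E (n + 1)), IsBody K ∧ (∀ x ∈ K, -x ∈ K) ∧
      Metric.closedBall 0 r ⊆ K ∧ K ⊆ Metric.closedBall 0 R ∧
      ratio K < sInf 𝒦 + 1 / ((j:ℝ) + 1) := by
    intro j
    obtain ⟨_, ⟨K, hK, hsym, rfl⟩, hlt⟩ := exists_lt_of_csInf_lt hne
      (lt_add_of_pos_right (sInf 𝒦) (show 0 < 1 / ((j:ℝ) + 1) by positivity))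
    obtain ⟨T, h1, h2⟩ := exists_auerbach hK hsym
    refine ⟨T '' K, ⟨hK.compact.image T.toContinuousLinearEquiv.continuous,
      hK.convex.linear_image T.toLinearMap, ⟨0, interior_mono h1 ?_⟩⟩, ?_, h1, h2,
      (ratio_linear hK.compact hK.convex T).trans_lt hlt⟩
    · rw [interior_closedBall _ hr.ne']; exact Metric.mem_ball_self hr
    · rintro _ ⟨y, hy, rfl⟩; exact ⟨-y, hsym y hy, map_neg T y⟩
  choose Kj hKj hsym hrK hKR hrat using hseq
  let X := {x : E (n + 1) // x ∈ Metric.closedBall (0 : E (n + 1)) R}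
  have : CompactSpace X := isCompact_iff_compactSpace.1 (isCompact_closedBall _ _)
  let s : ℕ → NonemptyCompacts X := fun j =>
    ⟨⟨(Subtype.val : X → E (n + 1)) ⁻¹' Kj j,
      ((hKj j).compact.isClosed.preimage continuous_subtype_val).isCompact⟩, by
      obtain ⟨y, hy⟩ := (hKj j).nonempty
      exact ⟨⟨y, hKR j (interior_subset hy)⟩, (interior_subset hy : y ∈ Kj j)⟩⟩
  obtain ⟨t, φ, hφ, hlim⟩ := CompactSpace.tendsto_subseq s
  set C := (Subtype.val : X → E (n + 1)) '' (t : Set X) ∪ -((Subtype.val : X → E (n + 1)) '' (t : Set X))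
  set L := closure (convexHull ℝ C)
  have hnear : ∀ ε : ℝ, 0 < ε → ∀ᶠ k in atTop, L ⊆ (1 + ε / r) • Kj (φ k) ∧
      (∀ x ∈ Kj (φ k), ∃ y ∈ L, dist x y ≤ ε) := by
    intro ε hε
    filter_upwards [Metric.tendsto_nhds.1 hlim ε hε] with k hk
    rw [Function.comp_apply, Metric.NonemptyCompacts.dist_eq] at hk
    have hfin : Metric.hausdorffEDist (s (φ k) : Set X) (t : Set X) ≠ ⊤ :=
      Metric.hausdorffEDist_ne_top_of_nonempty_of_bounded (s (φ k)).nonempty t.nonempty
        (s (φ k)).isCompact.isBounded t.isCompact.isBounded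
    refine ⟨?_, fun x hx => ?_⟩
    · have hC : C ⊆ (1 + ε / r) • Kj (φ k) := by
        refine subset_smul_of_close (hKj _).convex hr hε (hrK _) ?_
        rintro x (⟨y, hy, rfl⟩ | hx)
        · obtain ⟨z, hz, hd⟩ := Metric.exists_dist_lt_of_hausdorffDist_lt' hy hk hfin
          exact ⟨z, hz, by rw [dist_comm]; exact hd.le⟩
        · obtain ⟨y, hy, hyx⟩ := hx
          obtain ⟨z, hz, hd⟩ := Metric.exists_dist_lt_of_hausdorffDist_lt' hy hk hfin
          refine ⟨-(z : E (n + 1)), hsym _ _ hz, ?_⟩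
          rw [show x = -(y : E (n + 1)) by rw [hyx, neg_neg], dist_neg_neg, dist_comm]
          exact hd.le
      exact closure_minimal (convexHull_min hC ((hKj _).convex.smul _))
        ((hKj _).compact.smul _).isClosed
    · have hx' : (⟨x, hKR _ hx⟩ : X) ∈ (s (φ k) : Set X) := hx
      obtain ⟨z, hz, hd⟩ := Metric.exists_dist_lt_of_hausdorffDist_lt hx' hk hfin
      exact ⟨z, subset_closure (subset_convexHull ℝ C (Or.inl ⟨z, hz, rfl⟩)), hd.le⟩
  have hLc : IsCompact L := by
    obtain ⟨k, hk⟩ := (hnear 1 one_pos).exists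
    exact ((hKj _).compact.smul _).of_isClosed_subset isClosed_closure hk.1
  have hLv : Convex ℝ L := (convex_convexHull ℝ C).closure
  have hLs : ∀ x ∈ L, -x ∈ L := by
    have hCs : -C = C := by simp only [C, Set.union_neg, neg_neg, union_comm]
    have hneg : -L = L := by
      simp only [L]
      rw [neg_closure, ← convexHull_neg, hCs]
    intro x hx
    rw [← hneg, Set.mem_neg] at hx
    exact hx
  have hLr : Metric.closedBall 0 r ⊆ L := by
    intro x hx
    rw [← hLc.isClosed.closure_eq, Metric.mem_closure_iff]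
    intro ε hε
    obtain ⟨k, hk⟩ := (hnear (ε / 2) (half_pos hε)).exists
    obtain ⟨y, hy, hd⟩ := hk.2 x (hrK _ hx)
    exact ⟨y, hy, hd.trans_lt (half_lt_self hε)⟩
  have hLb : IsBody L := ⟨hLc, hLv, ⟨0, interior_mono hLr (by
    rw [interior_closedBall _ hr.ne']; exact Metric.mem_ball_self hr)⟩⟩
  refine ⟨L, isMin_of_symm hLb fun M hM hMs => ?_, hLs⟩
  refine le_trans ?_ (csInf_le hbdd ⟨M, hM, hMs, rfl⟩)
  have hm0 : 0 ≤ sInf 𝒦 := le_csInf hne (by rintro _ ⟨K, hK, -, rfl⟩; exact (ratio_pos hK).le)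
  have key : ∀ ε : ℝ, 0 < ε → ratio L ≤ (1 + ε / r) ^ (2 * n * (n + 1)) * (sInf 𝒦 + ε) := by
    intro ε hε
    obtain ⟨N, hN⟩ := exists_nat_one_div_lt hε
    obtain ⟨k, hk, hkN⟩ := ((hnear ε hε).and (eventually_ge_atTop N)).exists
    have hkj : N ≤ φ k := hkN.trans (hφ.id_le k)
    have h2 : 1 / ((φ k : ℝ) + 1) ≤ 1 / ((N:ℝ) + 1) :=
      one_div_le_one_div_of_le (by positivity) (by exact_mod_cast Nat.succ_le_succ hkj)
    refine (ratio_le_of_sandwich (hKj (φ k)) hLb (by positivity) hk.1
      (subset_smul_of_close hLv hr hε hLr hk.2)).trans ?_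
    refine mul_le_mul_of_nonneg_left ?_ (by positivity)
    linarith [hrat (φ k)]
  have hlim' : Tendsto (fun ε : ℝ => (1 + ε / r) ^ (2 * n * (n + 1)) * (sInf 𝒦 + ε)) (𝓝[>] 0)
      (𝓝 (sInf 𝒦)) := by
    have hc : Continuous fun ε : ℝ => (1 + ε / r) ^ (2 * n * (n + 1)) * (sInf 𝒦 + ε) := by fun_prop
    simpa using (hc.tendsto 0).mono_left nhdsWithin_le_nhds
  exact ge_of_tendsto hlim' (eventually_nhdsWithin_of_forall key)

end Vale.Agent.P237.Sharp
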