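import Mathlib
import Vale.Agent.P237.Sharp.AllMin
import Vale.Agent.P237.Sharp.Minimiser

/-!
# P237, sharp route: isotropic position with inscribed unit ball touching
-/

open MeasureTheory Set Real
open scoped Pointwise RealInnerProductSpace

namespace Vale.Agent.P237.Sharp

variable {n : ℕ}

/-- Change of variables for second moments. -/
lemma mom_linear (T : E n ≃ₗ[ℝ] E n) (S : Set (E n)) (v : E n) :
    mom S (LinearMap.adjoint T.toLinearMap v) =
      |(LinearMap.det T.toLinearMap)⁻¹| * mom (T '' S) v := by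
  have h := (T.toContinuousLinearEquiv.toHomeomorph.toMeasurableEquiv).measurableEmbedding.setIntegral_map
    (μ := volume) (fun y => ⟪y, v⟫ ^ 2) (T '' S)
  change ∫ y in T '' S, ⟪y, v⟫ ^ 2 ∂Measure.map T.toLinearMap volume =
    ∫ x in T ⁻¹' (T '' S), ⟪T x, v⟫ ^ 2 at h
  rw [Measure.map_linearMap_addHaar_eq_smul_addHaar volume T.isUnit_det'.ne_zero,
    preimage_image_eq _ T.injective, Measure.restrict_smul, integral_smul_measure,
    ENNReal.toReal_ofReal (abs_nonneg _), smul_eq_mul] at h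
  rw [mom, mom, h]
  simp only [LinearMap.adjoint_inner_right]
  rfl

/-- Every body has a linear image with scalar second moment matrix. -/
lemma exists_isotropic {K : Set (E n)} (hK : IsBody K) :
    ∃ T : E n ≃ₗ[ℝ] E n, ∀ v w : E n, ‖v‖ = ‖w‖ → mom (T '' K) v = mom (T '' K) w := by
  obtain ⟨b, hb⟩ := exists_mom_basis hK.compact
  have hm : ∀ i, 0 < √(mom K (b i)) := fun i =>
    Real.sqrt_pos.2 (mom_pos hK.compact hK.nonempty (b.orthonormal.ne_zero i))
  set f : E n →ₗ[ℝ] E n :=
    { toFun := fun x => WithLp.toLp 2 fun i => (√(mom K (b i)))⁻¹ * ⟪b i, x⟫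
      map_add' := fun x y => by ext i; simp [inner_add_right, mul_add]
      map_smul' := fun c x => by ext i; simp [real_inner_smul_right, mul_left_comm] } with hf
  have hfi : ∀ x i, f x i = (√(mom K (b i)))⁻¹ * ⟪b i, x⟫ := fun _ _ => rfl
  have hinj : Function.Injective f := by
    rw [injective_iff_map_eq_zero]
    intro x hx
    rw [← b.sum_repr' x]
    refine Finset.sum_eq_zero fun i _ => ?_
    have := congrArg (fun y : E n => y i) hx
    simp only [hfi, PiLp.zero_apply, mul_eq_zero, inv_eq_zero, (hm i).ne', false_or] at this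
    rw [this, zero_smul]
  have hfb : ∀ i, f (b i) = EuclideanSpace.single i (√(mom K (b i)))⁻¹ := by
    intro i
    ext j
    rw [hfi, b.inner_eq_ite]
    by_cases h : j = i <;> simp [h]
  have key : ∀ v, mom K (LinearMap.adjoint f v) = ‖v‖ ^ 2 := by
    intro v
    rw [hb, EuclideanSpace.real_norm_sq_eq]
    refine Finset.sum_congr rfl fun i _ => ?_
    rw [LinearMap.adjoint_inner_right, hfb, EuclideanSpace.inner_single_left, conj_trivial,
      mul_pow, inv_pow, Real.sq_sqrt (mom_nonneg _ _),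
      mul_inv_cancel_left₀ (mom_pos hK.compact hK.nonempty (b.orthonormal.ne_zero i)).ne']
  set T := LinearEquiv.ofInjectiveEndo f hinj
  refine ⟨T, fun v w h => ?_⟩
  have hT : T.toLinearMap = f := LinearMap.ext fun _ => rfl
  have hv := mom_linear T K v
  have hw := mom_linear T K w
  rw [hT, key] at hv hw
  rw [h, hw] at hv
  refine (mul_left_cancel₀ ?_ hv).symm
  have := T.isUnit_det'.ne_zero
  rw [hT] at this
  simp [this]

lemma isMin_linear {K : Set (E (n + 1))} (hK : IsMin K) (T : E (n + 1) ≃ₗ[ℝ] E (n + 1)) :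
    IsMin (T '' K) := by
  refine ⟨⟨hK.1.compact.image T.toContinuousLinearEquiv.continuous,
    hK.1.convex.linear_image T.toLinearMap, ?_⟩, fun L hL => ?_⟩
  · have h := T.toContinuousLinearEquiv.toHomeomorph.image_interior K
    exact (show (interior (T '' K)) = T '' interior K from h.symm) ▸ hK.1.nonempty.image T
  · rw [ratio_linear hK.1.compact hK.1.convex]
    exact hK.2 L hL

/-- A minimiser has a linear image which is isotropic, contains the unit ball, and touches it. -/
theorem exists_position_touch {K : Set (E (n + 1 + 1))} (hK : IsMin K) (hsym : ∀ x ∈ K, -x ∈ K) :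
    ∃ T : E (n + 1 + 1) ≃ₗ[ℝ] E (n + 1 + 1), IsMin (T '' K) ∧ (∀ x ∈ T '' K, -x ∈ T '' K) ∧
      Metric.closedBall 0 1 ⊆ T '' K ∧ (∃ v, ‖v‖ = 1 ∧ supp (T '' K) v = 1) ∧
      ∀ v w : E (n + 1 + 1), ‖v‖ = ‖w‖ → mom (T '' K) v = mom (T '' K) w := by
  obtain ⟨T, hT⟩ := exists_isotropic hK.1
  have hM := isMin_linear hK T
  have hMs : ∀ x ∈ T '' K, -x ∈ T '' K := by
    rintro _ ⟨x, hx, rfl⟩; exact ⟨-x, hsym x hx, map_neg T x⟩
  set M := T '' K
  have hcont : Continuous fun u : E (n + 1 + 1) => supp M u :=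
    hM.1.compact.continuous_sSup (f := fun u x => ⟪x, u⟫) (by fun_prop)
  obtain ⟨v, hv, hmin⟩ := (isCompact_sphere (0 : E (n + 1 + 1)) 1).exists_isMinOn
    ⟨e0, by simp [e0]⟩ hcont.continuousOn
  rw [mem_sphere_zero_iff_norm] at hv
  obtain ⟨L, hL⟩ := exists_frame hv
  have hr : 0 < supp M v := (profile hM.1 hMs hv L hL).1
  set r := supp M v
  set S := T.trans (LinearEquiv.smulOfNeZero ℝ (E (n + 1 + 1)) r⁻¹ (inv_ne_zero hr.ne'))
  have hS : S '' K = r⁻¹ • M := by
    rw [← image_smul, image_image]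
    rfl
  have hsymS : ∀ x ∈ S '' K, -x ∈ S '' K := by
    rintro _ ⟨x, hx, rfl⟩; exact ⟨-x, hsym x hx, map_neg S x⟩
  have hsupp : ∀ u, supp (r⁻¹ • M) u = r⁻¹ * supp M u := fun u => supp_smul M (inv_nonneg.2 hr.le) u
  refine ⟨S, isMin_linear hK S, hsymS, ?_, ⟨v, hv, ?_⟩, fun a b hab => ?_⟩
  · rw [hS]
    have hb := isBody_smul hM.1 (inv_pos.2 hr)
    refine subset_of_supp_le (isCompact_closedBall _ _) hb.compact hb.convex
      (hb.nonempty.mono interior_subset) fun u hu => ?_
    rw [hsupp]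
    refine (csSup_le ((Metric.nonempty_closedBall.2 zero_le_one).image _) ?_).trans
      (show 1 ≤ r⁻¹ * supp M u from ?_)
    · rintro _ ⟨x, hx, rfl⟩
      have := real_inner_le_norm x u
      rw [hu, mul_one] at this
      exact this.trans (mem_closedBall_zero_iff.1 hx)
    · rw [le_inv_mul_iff₀ hr, mul_one]
      exact hmin (mem_sphere_zero_iff_norm.2 hu)
  · rw [hS, hsupp, inv_mul_cancel₀ hr.ne']
  · rw [hS]
    have hsc : ∀ u, mom (r⁻¹ • M) u = (r⁻¹) ^ (n + 1 + 1) * (r⁻¹) ^ 2 * mom M u := by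
      intro u
      have := Measure.setIntegral_comp_smul_of_pos volume (fun x : E (n + 1 + 1) => ⟪x, u⟫ ^ 2) M
        (inv_pos.2 hr)
      simp only [real_inner_smul_left, mul_pow, integral_const_mul, finrank_euclideanSpace_fin,
        smul_eq_mul] at this
      rw [eq_inv_mul_iff_mul_eq₀ (by positivity)] at this
      rw [mom, mom, mul_assoc, this]
    rw [hsc, hsc, hT a b hab]

end Vale.Agent.P237.Sharp
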