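import Mathlib
import Vale.Agent.P237.Sharp.Defs

/-!
# P237, sharp route in dimension three: the interface
-/

open MeasureTheory Set Real
open scoped Pointwise RealInnerProductSpace

namespace Vale.Agent.P237.Sharp

/-- The weighted one-dimensional inequality behind Petty's inequality in `ℝ³`. -/
def OneD3 : Prop :=
  ∀ f : ℝ → ℝ, ConcaveOn ℝ (Icc 0 1) f → AntitoneOn f (Icc 0 1) →
    (∀ t ∈ Icc (0:ℝ) 1, √(1 - t ^ 2) ≤ f t) →
    -(4 / 15 : ℝ) ≤ 3 * (∫ t in (0:ℝ)..1, t ^ 2 * f t ^ 2) - ∫ t in (0:ℝ)..1, f t ^ 2 →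
    3 * π ^ 2 / 32 * (∫ t in (0:ℝ)..1, f t ^ 2) ≤ (∫ t in (0:ℝ)..1, f t) ^ 2 ∧
      (3 * π ^ 2 / 32 * (∫ t in (0:ℝ)..1, f t ^ 2) = (∫ t in (0:ℝ)..1, f t) ^ 2 →
        ∀ t ∈ Ioo (0:ℝ) 1, f t = √(1 - t ^ 2))

/-- Petty's inequality in `ℝ³` with its equality case. -/
def PettyThree : Prop :=
  ∀ K : Set (E 3), IsCompact K → Convex ℝ K → (interior K).Nonempty →
    3 * π ^ 2 / 4 * volume.real K ^ 2 ≤ volume.real (projBody K) ∧
      (3 * π ^ 2 / 4 * volume.real K ^ 2 = volume.real (projBody K) ↔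
        ∃ (a : E 3) (T : E 3 ≃ₗ[ℝ] E 3), K = (fun x => a + x) '' (T '' Metric.closedBall 0 1))

end Vale.Agent.P237.Sharp
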