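import Mathlib
import Vale.Agent.P237.Sharp.Position3
import Vale.Agent.P237.Sharp.Spec3

/-!
# P237, sharp route: Petty's inequality in `ℝ³` from the one-dimensional inequality `OneD3`
-/

open MeasureTheory Set Real Metric
open scoped Pointwise RealInnerProductSpace

namespace Vale.Agent.P237.Sharp

lemma isBody_ball {m : ℕ} : IsBody (closedBall (0 : E m) 1) :=
  ⟨isCompact_closedBall _ _, convex_closedBall _ _,
    ⟨0, by rw [interior_closedBall _ one_ne_zero]; exact mem_ball_self one_pos⟩⟩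

lemma norm_sq_cons {m : ℕ} (t : ℝ) (y : E m) : ‖cons t y‖ ^ 2 = t ^ 2 + ‖y‖ ^ 2 := by
  rw [← real_inner_self_eq_norm_sq, inner_cons, real_inner_self_eq_norm_sq]
  ring

lemma tl_ball {m : ℕ} : tl '' closedBall (0 : E (m + 1)) 1 = closedBall (0 : E m) 1 := by
  ext y
  simp only [mem_image, mem_closedBall_zero_iff]
  constructor
  · rintro ⟨x, hx, rfl⟩
    have h := norm_sq_cons (hd x) (tl x)
    rw [cons_hd_tl] at h
    exact ((sq_le_sq₀ (norm_nonneg _) (norm_nonneg _)).1 (by nlinarith [sq_nonneg (hd x)])).trans hx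
  · intro hy
    refine ⟨cons 0 y, ?_, tl_cons _ _⟩
    refine (sq_le_one_iff₀ (norm_nonneg _)).1 ?_
    rw [norm_sq_cons]
    simpa using pow_le_one₀ (n := 2) (norm_nonneg y) hy

lemma slice_ball {m : ℕ} {t : ℝ} (ht : t ∈ Icc (0:ℝ) 1) :
    slice (closedBall (0 : E (m + 1)) 1) t = closedBall 0 √(1 - t ^ 2) := by
  ext y
  show cons t y ∈ closedBall (0 : E (m + 1)) 1 ↔ _
  rw [mem_closedBall_zero_iff, mem_closedBall_zero_iff, ← sq_le_one_iff₀ (norm_nonneg _),
    norm_sq_cons, Real.le_sqrt (norm_nonneg _) (by nlinarith [ht.1, ht.2])]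
  constructor <;> intro h <;> linarith

lemma vol_disc {r : ℝ} (hr : 0 ≤ r) : volume.real (closedBall (0 : E 2) r) = π * r ^ 2 := by
  rw [measureReal_def, EuclideanSpace.volume_closedBall_fin_two, ENNReal.toReal_mul,
    ENNReal.toReal_pow, ENNReal.toReal_ofReal hr, ENNReal.toReal_ofReal pi_pos.le, mul_comm]

lemma vol_ball {r : ℝ} (hr : 0 ≤ r) :
    volume.real (closedBall (0 : E 3) r) = 4 * π / 3 * r ^ 3 := by
  rw [measureReal_def, EuclideanSpace.volume_closedBall_fin_three, ENNReal.toReal_mul,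
    ENNReal.toReal_pow, ENNReal.toReal_ofReal hr, ENNReal.toReal_ofReal (by positivity)]
  ring

lemma projArea_ball {u : E 3} (hu : ‖u‖ = 1) : projArea (closedBall (0 : E 3) 1) u = π := by
  obtain ⟨L, hL⟩ := exists_frame (n := 2) hu
  rw [projArea_frame (n := 2) hu L hL, LinearIsometryEquiv.image_closedBall, map_zero,
    tl_ball (m := 2), vol_disc zero_le_one, one_pow, mul_one]

lemma projBody_ball : projBody (closedBall (0 : E 3) 1) = closedBall 0 π := by
  ext x
  rw [mem_closedBall_zero_iff]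
  constructor
  · intro hx
    rcases eq_or_ne x 0 with rfl | h0
    · simpa using pi_pos.le
    · have hu := norm_smul_inv_norm (𝕜 := ℝ) h0
      have := hx _ hu
      rw [projArea_ball hu, RCLike.ofReal_real_eq_id, id_eq, real_inner_smul_right,
        real_inner_self_eq_norm_sq, sq, inv_mul_cancel_left₀ (norm_ne_zero_iff.2 h0)] at this
      exact this
  · intro hx u hu
    rw [projArea_ball hu]
    have := real_inner_le_norm x u
    rw [hu, mul_one] at this
    exact this.trans hx

lemma ratio_ball : ratio (closedBall (0 : E 3) 1) = 3 * π ^ 2 / 4 := by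
  show volume.real (projBody (closedBall (0 : E 3) 1)) / _ ^ 2 = _
  rw [projBody_ball, vol_ball pi_pos.le, vol_ball zero_le_one]
  have := pi_pos.ne'
  field_simp

lemma mom_ball {v : E 3} (hv : ‖v‖ = 1) : mom (closedBall (0 : E 3) 1) v = 4 * π / 15 := by
  obtain ⟨L, hL⟩ := exists_frame (n := 2) hv
  have hs : supp (closedBall (0 : E 3) 1) v = 1 := by
    refine le_antisymm (csSup_le ((nonempty_closedBall.2 zero_le_one).image _) ?_) ?_
    · rintro _ ⟨x, hx, rfl⟩
      have := real_inner_le_norm x v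
      rw [hv, mul_one] at this
      exact this.trans (mem_closedBall_zero_iff.1 hx)
    · have := le_supp (isCompact_closedBall (0 : E 3) 1) v (mem_closedBall_zero_iff.2 hv.le)
      rwa [real_inner_self_eq_norm_sq, hv, one_pow] at this
  rw [profile_moment (n := 1) isBody_ball (fun x hx => by simpa using hx) hv L hL, hs,
    LinearIsometryEquiv.image_closedBall, map_zero,
    intervalIntegral.integral_congr (g := fun t => π * t ^ 2 - π * t ^ 4) fun t ht => ?_]
  · rw [intervalIntegral.integral_sub (Continuous.intervalIntegrable (by fun_prop) _ _)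
      (Continuous.intervalIntegrable (by fun_prop) _ _), intervalIntegral.integral_const_mul,
      intervalIntegral.integral_const_mul, integral_pow, integral_pow]
    push_cast
    ring
  · rw [uIcc_of_le (zero_le_one : (0:ℝ) ≤ 1)] at ht
    show t ^ 2 * volume.real (slice (closedBall (0 : E 3) 1) t) = _
    rw [slice_ball (m := 2) ht, vol_disc (sqrt_nonneg _), sq_sqrt (by nlinarith [ht.1, ht.2])]
    ring

/-- Outside the unit ball the squared norm exceeds one. -/
lemma moment_bound {K : Set (E 3)} (hK : IsCompact K) (hBK : closedBall 0 1 ⊆ K)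
    (hiso : ∀ v w : E 3, ‖v‖ = ‖w‖ → mom K v = mom K w) {v : E 3} (hv : ‖v‖ = 1) :
    volume.real K - 8 * π / 15 ≤ 3 * mom K v := by
  have hsum : ∀ S : Set (E 3), IsCompact S →
      ∫ x in S, ‖x‖ ^ 2 = ∑ i : Fin 3, mom S (EuclideanSpace.single i 1) := by
    intro S hS
    simp only [mom]
    rw [← integral_finsetSum _ fun i _ =>
      (Continuous.continuousOn (by fun_prop)).integrableOn_compact hS]
    refine setIntegral_congr_fun hS.measurableSet fun x _ => ?_
    simp [EuclideanSpace.real_norm_sq_eq, EuclideanSpace.inner_single_right]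
  have hB : IsCompact (closedBall (0 : E 3) 1) := isCompact_closedBall _ _
  have hK3 : ∫ x in K, ‖x‖ ^ 2 = 3 * mom K v := by
    rw [hsum K hK, Finset.sum_congr rfl fun i _ => hiso (EuclideanSpace.single i 1) v (by simp [hv])]
    simp
  have hB3 : ∫ x in closedBall (0 : E 3) 1, ‖x‖ ^ 2 = 4 * π / 5 := by
    rw [hsum _ hB, Finset.sum_congr rfl fun i _ => mom_ball (v := EuclideanSpace.single i 1) (by simp)]
    simp
    ring
  have hi : IntegrableOn (fun x : E 3 => ‖x‖ ^ 2) K :=
    (Continuous.continuousOn (by fun_prop)).integrableOn_compact hK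
  have h1 : 1 * volume.real (K \ closedBall 0 1) ≤ ∫ x in K \ closedBall 0 1, ‖x‖ ^ 2 :=
    setIntegral_ge_of_const_le_real (hK.measurableSet.diff hB.measurableSet)
      ((measure_mono sdiff_subset).trans_lt hK.measure_lt_top).ne
      (fun x hx => by
        have := hx.2
        rw [mem_closedBall_zero_iff, not_le] at this
        exact one_le_pow₀ this.le)
      (hi.mono_set sdiff_subset)
  rw [setIntegral_sdiff hB.measurableSet hi hBK, hK3, hB3,
    measureReal_sdiff hBK hB.measurableSet hK.measure_lt_top.ne, vol_ball zero_le_one] at h1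
  linarith

/-- A minimiser in position has ratio at least that of the ball. -/
theorem three_core (h : OneD3) {K : Set (E 3)} (hK : IsMin (n := 2) K)
    (hsym : ∀ x ∈ K, -x ∈ K) (hBK : closedBall 0 1 ⊆ K)
    {v : E 3} (hv : ‖v‖ = 1) (hs : supp K v = 1)
    (hiso : ∀ v w : E 3, ‖v‖ = ‖w‖ → mom K v = mom K w) :
    3 * π ^ 2 / 4 ≤ ratio K ∧ (ratio K = 3 * π ^ 2 / 4 → K = closedBall 0 1) := by
  obtain ⟨L, hL⟩ := exists_frame (n := 2) hv
  obtain ⟨-, hconc, hanti, -, hV⟩ := profile (n := 1) hK.1 hsym hv L hL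
  have hM := profile_moment (n := 1) hK.1 hsym hv L hL
  have IH : ∀ Q : Set (E (1 + 1)), IsBody Q →
      4 * volume.real Q ^ 1 ≤ volume.real (projBody Q) := by
    intro Q hQ
    have := bound_all 2 (by omega) Q hQ
    simpa [cst] using this
  have hsh := shadow_core_gen (n := 1) (c := 4) (by norm_num) IH hK.1 hsym hv L hL
  rw [isMin_projArea hK hsym hv, hs, mul_one] at hsh
  simp only [hs] at hconc hanti hV hM
  set A : ℝ → ℝ := fun t => volume.real (slice (L '' K) t)
  set f : ℝ → ℝ := fun t => A t ^ (((1 + 1 : ℕ):ℝ)⁻¹)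
  change _ ≤ _ at hsh
  simp only [pow_one] at hsh
  set c : ℝ := (√π)⁻¹ with hcdef
  have hc0 : 0 ≤ c := inv_nonneg.2 (sqrt_nonneg _)
  have hc2 : c ^ 2 = π⁻¹ := by rw [hcdef, inv_pow, sq_sqrt pi_pos.le]
  set F : ℝ → ℝ := fun t => c * f t
  have hFsq : ∀ t, F t ^ 2 = π⁻¹ * A t := fun t => by
    show (c * f t) ^ 2 = _
    rw [mul_pow, hc2]
    exact congrArg _ (rpow_inv_natCast_pow measureReal_nonneg (by omega))
  have hFconc : ConcaveOn ℝ (Icc 0 1) F := hconc.smul hc0
  have hFanti : AntitoneOn F (Icc 0 1) := fun x hx y hy hxy =>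
    mul_le_mul_of_nonneg_left (hanti hx hy hxy) hc0
  have hF0 : ∀ t, 0 ≤ F t := fun t => mul_nonneg hc0 (rpow_nonneg measureReal_nonneg _)
  have hlow : ∀ t ∈ Icc (0:ℝ) 1, √(1 - t ^ 2) ≤ F t := by
    intro t ht
    refine sqrt_le_iff.2 ⟨hF0 t, ?_⟩
    rw [hFsq, le_inv_mul_iff₀ pi_pos]
    have hsub : slice (closedBall (0 : E 3) 1) t ⊆ slice (L '' K) t := fun y hy => by
      refine image_mono hBK ?_
      rw [LinearIsometryEquiv.image_closedBall, map_zero]
      exact hy
    have := measureReal_mono (μ := volume) hsub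
      (slice_isCompact (n := 2) (hK.1.compact.image L.continuous) t).measure_lt_top.ne
    rw [slice_ball (m := 2) ht, vol_disc (sqrt_nonneg _),
      sq_sqrt (by nlinarith [ht.1, ht.2])] at this
    exact this
  set V := volume.real K with hVdef
  have hV0 : 0 < V := hK.1.volume_pos
  have eF : ∫ t in (0:ℝ)..1, F t ^ 2 = V / (2 * π) := by
    simp only [hFsq, intervalIntegral.integral_const_mul]
    rw [hV]
    field_simp
  have eM : ∫ t in (0:ℝ)..1, t ^ 2 * F t ^ 2 = mom K v / (2 * π) := by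
    simp only [hFsq, mul_left_comm _ π⁻¹, intervalIntegral.integral_const_mul]
    rw [hM]
    field_simp
    rfl
  have hmom := moment_bound hK.1.compact hBK hiso hv
  have hmom' : -(4 / 15 : ℝ) ≤
      3 * (∫ t in (0:ℝ)..1, t ^ 2 * F t ^ 2) - ∫ t in (0:ℝ)..1, F t ^ 2 := by
    rw [eF, eM, mul_div_assoc', ← sub_div, le_div_iff₀ (by positivity)]
    linarith
  obtain ⟨h1, h2⟩ := h F hFconc hFanti hlow hmom'
  rw [eF] at h1 h2
  set J := ∫ t in (0:ℝ)..1, F t
  have eJ : J = c * ∫ t in (0:ℝ)..1, f t := intervalIntegral.integral_const_mul _ _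
  have hP : 16 * π * J ^ 2 ≤ ratio K * V := by
    have hr : ratio K * V = volume.real (projBody K) / V := by
      show volume.real (projBody K) / V ^ 2 * V = _
      field_simp
    rw [hr, eJ, mul_pow c, hc2]
    refine le_trans (le_of_eq ?_) hsh
    show _ = 4 * (2 * ∫ t in (0:ℝ)..1, f t) ^ (1 + 1)
    have := pi_pos.ne'
    field_simp
    ring
  have h3 : 3 * π ^ 2 / 4 * V ≤ 16 * π * J ^ 2 := by
    refine le_trans (le_of_eq ?_) (mul_le_mul_of_nonneg_left h1 (by positivity : 0 ≤ 16 * π))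
    field_simp
    ring
  refine ⟨le_of_mul_le_mul_right (h3.trans hP) hV0, fun heq => ?_⟩
  rw [heq] at hP
  have hJ : 3 * π ^ 2 / 32 * (V / (2 * π)) = J ^ 2 := by
    refine mul_left_cancel₀ (by positivity : (16 * π : ℝ) ≠ 0) (Eq.trans ?_ (le_antisymm h3 hP))
    field_simp
    ring
  have hF := h2 hJ
  have e : ∫ t in (0:ℝ)..1, F t ^ 2 = 2 / 3 := by
    rw [intervalIntegral.integral_of_le zero_le_one, integral_Ioc_eq_integral_Ioo,
      setIntegral_congr_fun measurableSet_Ioo (g := fun t => 1 - t ^ 2) fun t ht => by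
        rw [hF t ht, sq_sqrt (by nlinarith [ht.1, ht.2])],
      ← integral_Ioc_eq_integral_Ioo, ← intervalIntegral.integral_of_le zero_le_one,
      intervalIntegral.integral_sub (by simp) (Continuous.intervalIntegrable (by fun_prop) _ _),
      intervalIntegral.integral_const, integral_pow]
    norm_num
  rw [eF, div_eq_iff (by positivity)] at e
  refine (eq_of_subset_of_volume (isCompact_closedBall _ _) hK.1 hBK ?_).symm
  rw [vol_ball zero_le_one, ← hVdef, e]
  linarith

lemma ratio_ellipsoid (a : E 3) (T : E 3 ≃ₗ[ℝ] E 3) :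
    ratio ((fun x => a + x) '' (T '' closedBall 0 1)) = 3 * π ^ 2 / 4 := by
  rw [ratio_translate (n := 2), ratio_linear (n := 2) (isCompact_closedBall _ _)
    (convex_closedBall _ _), ratio_ball]

/-- A symmetric minimiser: the bound, and only ellipsoids attain it. -/
theorem three_symm (h : OneD3) {K : Set (E 3)} (hK : IsMin (n := 2) K)
    (hsym : ∀ x ∈ K, -x ∈ K) :
    3 * π ^ 2 / 4 ≤ ratio K ∧
      (ratio K = 3 * π ^ 2 / 4 → ∃ T : E 3 ≃ₗ[ℝ] E 3, K = T '' closedBall 0 1) := by
  obtain ⟨S, hS, hSs, hB, ⟨v, hv, hsv⟩, hiso⟩ := exists_position_touch (n := 1) hK hsym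
  have hr : ratio (S '' K) = ratio K := ratio_linear hK.1.compact hK.1.convex S
  obtain ⟨h1, h2⟩ := three_core h hS hSs hB hv hsv hiso
  refine ⟨hr ▸ h1, fun he => ⟨S.symm, ?_⟩⟩
  rw [← h2 (hr.trans he), ← image_comp]
  simp

/-- Petty's inequality in `ℝ³`, with equality exactly for ellipsoids. -/
theorem pettyThree_of (h : OneD3) : PettyThree := by
  intro K hKc hKv hKi
  have hK : IsBody K := ⟨hKc, hKv, hKi⟩
  obtain ⟨M, hM, hMs⟩ := exists_isMin 2
  have hall : ∀ L : Set (E 3), IsBody L → 3 * π ^ 2 / 4 ≤ ratio L := fun L hL =>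
    (three_symm h hM hMs).1.trans (hM.2 L hL)
  have hV := hK.volume_pos
  refine ⟨(le_ratio_iff (n := 2) hK).1 (hall K hK), fun he => ?_, ?_⟩
  · have hr : ratio K = 3 * π ^ 2 / 4 := by
      show volume.real (projBody K) / volume.real K ^ 2 = _
      rw [← he, mul_div_assoc, div_self (by positivity), mul_one]
    have hmin : IsMin (n := 2) K := ⟨hK, fun L hL => hr.trans_le (hall L hL)⟩
    obtain ⟨z, hz, hzs, -⟩ := isMin_exists_symm (n := 1) hmin
    obtain ⟨T, hT⟩ := (three_symm h hz hzs).2 ((ratio_translate (n := 2) K z).trans hr)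
    exact ⟨-z, T, by rw [← hT, image_image]; simp⟩
  · rintro ⟨a, T, rfl⟩
    have := ratio_ellipsoid a T
    rw [ratio, div_eq_iff (by positivity)] at this
    exact this.symm

end Vale.Agent.P237.Sharp
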