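import Mathlib
import Vale.Agent.P237.Main

/-!
# P237: ellipsoids
-/

namespace Vale.Agent.P237

/-- A translate of the image of the closed unit ball under an invertible linear map. -/
def IsEllipsoid {n : ℕ} (K : Set (E n)) : Prop :=
  ∃ (a : E n) (T : E n ≃ₗ[ℝ] E n), K = (fun x => a + x) '' (T '' Metric.closedBall 0 1)

end Vale.Agent.P237
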