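import Mathlib
import Vale.Agent.P237.Sharp.Three
import Vale.Agent.P237.Sharp.OneD3.Main
import Vale.Agent.P237.Sharp.OneD4.Spec
import Vale.Agent.P237.Const

/-!
# P237, sharp route: Petty's inequality in `ℝ⁴` from the one-dimensional inequality `OneD4`

The slices of a minimiser in position are three-dimensional, so the induction hypothesis is the
sharp inequality in `ℝ³`. Isotropy and the bathtub bound in each slice give the moment hypothesis.
-/

open MeasureTheory Set Real Metric
open scoped Pointwise RealInnerProductSpace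

namespace Vale.Agent.P237.Sharp

/-- Petty's inequality in `ℝ⁴` with its equality case. -/
def PettyFour : Prop :=
  ∀ K : Set (E 4), IsCompact K → Convex ℝ K → (interior K).Nonempty →
    1024 / 81 * volume.real K ^ 3 ≤ volume.real (projBody K) ∧
      (1024 / 81 * volume.real K ^ 3 = volume.real (projBody K) ↔
        ∃ (a : E 4) (T : E 4 ≃ₗ[ℝ] E 4), K = (fun x => a + x) '' (T '' Metric.closedBall 0 1))

lemma vol_ball_four {r : ℝ} (hr : 0 ≤ r) :
    volume.real (closedBall (0 : E 4) r) = π ^ 2 / 2 * r ^ 4 := by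
  have h4 : volume.real (closedBall (0 : E 4) 1) = π ^ 2 / 2 := by
    have h2 : kap 2 = π := by rw [kap, vol_disc zero_le_one, one_pow, mul_one]
    have := kap_rec 2
    rw [h2, kap] at this
    rw [this]
    push_cast
    ring
  rw [measureReal_def, Measure.addHaar_closedBall' volume _ hr, ENNReal.toReal_mul,
    ENNReal.toReal_ofReal (by positivity), finrank_euclideanSpace_fin, ← measureReal_def, h4,
    mul_comm]

lemma projArea_ball_four {u : E 4} (hu : ‖u‖ = 1) :
    projArea (closedBall (0 : E 4) 1) u = 4 * π / 3 := by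
  obtain ⟨L, hL⟩ := exists_frame (n := 3) hu
  rw [projArea_frame (n := 3) hu L hL, LinearIsometryEquiv.image_closedBall, map_zero,
    tl_ball (m := 3), vol_ball zero_le_one, one_pow, mul_one]

lemma projBody_ball_four : projBody (closedBall (0 : E 4) 1) = closedBall 0 (4 * π / 3) := by
  ext x
  rw [mem_closedBall_zero_iff]
  constructor
  · intro hx
    rcases eq_or_ne x 0 with rfl | h0
    · rw [norm_zero]; positivity
    · have hu := norm_smul_inv_norm (𝕜 := ℝ) h0
      have := hx _ hu
      rw [projArea_ball_four hu, RCLike.ofReal_real_eq_id, id_eq, real_inner_smul_right,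
        real_inner_self_eq_norm_sq, sq, inv_mul_cancel_left₀ (norm_ne_zero_iff.2 h0)] at this
      exact this
  · intro hx u hu
    rw [projArea_ball_four hu]
    have := real_inner_le_norm x u
    rw [hu, mul_one] at this
    exact this.trans hx

lemma ratio_ball_four : ratio (closedBall (0 : E 4) 1) = 1024 / 81 := by
  show volume.real (projBody (closedBall (0 : E 4) 1)) / _ ^ 3 = _
  rw [projBody_ball_four, vol_ball_four (by positivity), vol_ball_four zero_le_one]
  have := pi_pos.ne'
  field_simp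
  ring

/-- The polar moment of a ball in `ℝ³`. -/
lemma normSq_ball {r : ℝ} (hr : 0 ≤ r) :
    ∫ y in closedBall (0 : E 3) r, ‖y‖ ^ 2 = 4 * π / 5 * r ^ 5 := by
  rcases hr.eq_or_lt with rfl | hr0
  · rw [closedBall_zero, integral_singleton]
    simp
  have h1 : ∫ y in closedBall (0 : E 3) 1, ‖y‖ ^ 2 = 4 * π / 5 := by
    have e : ∀ y : E 3, ‖y‖ ^ 2 = ∑ i : Fin 3, ⟪y, EuclideanSpace.single i 1⟫ ^ 2 := fun y => by
      simp [EuclideanSpace.real_norm_sq_eq, EuclideanSpace.inner_single_right]
    simp only [e]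
    rw [integral_finsetSum _ fun i _ =>
      (Continuous.continuousOn (by fun_prop)).integrableOn_compact (isCompact_closedBall _ _)]
    show ∑ i : Fin 3, mom (closedBall (0 : E 3) 1) _ = _
    rw [Finset.sum_congr rfl fun i _ => mom_ball (v := EuclideanSpace.single i 1) (by simp)]
    simp
    ring
  have := Measure.setIntegral_comp_smul_of_pos volume (fun y : E 3 => ‖y‖ ^ 2)
    (closedBall (0 : E 3) 1) hr0
  rw [smul_closedBall r _ zero_le_one, smul_zero, mul_one, Real.norm_of_nonneg hr] at this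
  simp only [norm_smul, Real.norm_of_nonneg hr, mul_pow, integral_const_mul,
    finrank_euclideanSpace_fin, smul_eq_mul] at this
  rw [eq_inv_mul_iff_mul_eq₀ (by positivity), h1] at this
  rw [← this]
  ring

/-- Bathtub bound: among sets of given volume the ball has the least polar moment. -/
lemma bathtub {S : Set (E 3)} (hS : IsCompact S) {r : ℝ} (hr : 0 ≤ r)
    (hv : volume.real S = 4 * π / 3 * r ^ 3) :
    4 * π / 5 * r ^ 5 ≤ ∫ y in S, ‖y‖ ^ 2 := by
  have hB : IsCompact (closedBall (0 : E 3) r) := isCompact_closedBall _ _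
  have hc : Continuous fun y : E 3 => ‖y‖ ^ 2 - r ^ 2 := by fun_prop
  have h : ∫ y in closedBall (0 : E 3) r, (‖y‖ ^ 2 - r ^ 2) ≤ ∫ y in S, (‖y‖ ^ 2 - r ^ 2) := by
    rw [← integral_indicator hB.measurableSet, ← integral_indicator hS.measurableSet]
    refine integral_mono ((hc.continuousOn.integrableOn_compact hB).integrable_indicator
      hB.measurableSet) ((hc.continuousOn.integrableOn_compact hS).integrable_indicator
      hS.measurableSet) fun y => ?_
    by_cases h1 : y ∈ closedBall (0 : E 3) r <;> by_cases h2 : y ∈ S <;>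
      simp only [indicator_of_mem, indicator_of_notMem, h1, h2, not_false_iff, le_refl] <;>
      rw [mem_closedBall_zero_iff] at h1
    · nlinarith [norm_nonneg y]
    · rw [not_le] at h1; nlinarith
  have hi : ∀ T : Set (E 3), IsCompact T →
      ∫ y in T, (‖y‖ ^ 2 - r ^ 2) = (∫ y in T, ‖y‖ ^ 2) - r ^ 2 * volume.real T := by
    intro T hT
    have hq : IntegrableOn (fun y : E 3 => ‖y‖ ^ 2) T :=
      (Continuous.continuousOn (by fun_prop)).integrableOn_compact hT
    rw [integral_sub hq (continuousOn_const.integrableOn_compact hT), setIntegral_const,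
      smul_eq_mul, mul_comm (volume.real T)]
  rw [hi _ hB, hi _ hS, hv, normSq_ball hr, vol_ball hr] at h
  linarith

/-- The polar moment across a symmetric body, slice by slice. -/
lemma integral_tl_sq {C : Set (E 4)} (hC : IsCompact C) (hs : ∀ x ∈ C, -x ∈ C)
    (hb : ∀ x ∈ C, hd (n := 3) x ≤ 1) :
    IntervalIntegrable (fun t => ∫ y in slice (n := 3) C t, ‖y‖ ^ 2) volume 0 1 ∧
      ∫ x in C, ‖tl (n := 3) x‖ ^ 2 =
        2 * ∫ t in (0:ℝ)..1, ∫ y in slice (n := 3) C t, ‖y‖ ^ 2 := by
  set G : ℝ → ℝ := fun t => ∫ y in slice (n := 3) C t, ‖y‖ ^ 2 with hG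
  set T : Set (ℝ × E 3) := {p | cons p.1 p.2 ∈ C} with hT
  have hTm : MeasurableSet T := hC.measurableSet.preimage continuous_cons.measurable
  have hpre : (fun x : E 4 => (hd (n := 3) x, tl (n := 3) x)) ⁻¹' T = C := by
    ext x; simp [hT]
  have hTc : IsCompact T := by
    have : T = (fun x : E 4 => (hd (n := 3) x, tl (n := 3) x)) '' C := by
      ext p
      exact ⟨fun hp => ⟨_, hp, by simp⟩, by rintro ⟨x, hx, rfl⟩; simpa [hT] using hx⟩
    rw [this]
    exact hC.image (hd.continuous.prodMk tl.continuous)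
  have hint : Integrable (T.indicator fun p => ‖p.2‖ ^ 2) (volume.prod volume) :=
    ((Continuous.continuousOn (by fun_prop)).integrableOn_compact hTc).integrable_indicator hTm
  have hsl : ∀ t, (∫ y, T.indicator (fun p => ‖p.2‖ ^ 2) (t, y)) = G t := by
    intro t
    rw [show (fun y => T.indicator (fun p => ‖p.2‖ ^ 2) (t, y)) =
        (slice (n := 3) C t).indicator (fun y => ‖y‖ ^ 2) from by
      funext y; exact (Set.indicator_comp_right (Prod.mk t)
        (g := fun p : ℝ × E 3 => ‖p.2‖ ^ 2) (x := y)).symm,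
      integral_indicator (slice_isCompact (n := 3) hC t).measurableSet]
  have hGi : Integrable G := hint.integral_prod_left.congr (.of_forall hsl)
  refine ⟨hGi.intervalIntegrable, ?_⟩
  have h1 : ∫ x in C, ‖tl (n := 3) x‖ ^ 2 = ∫ t, G t := by
    conv_lhs => rw [← hpre]
    have hemb : MeasurableEmbedding (fun x : E 4 => (hd (n := 3) x, tl (n := 3) x)) :=
      (LinearMap.isClosedEmbedding_of_injective
        (f := LinearMap.prod (hd (n := 3)).toLinearMap (tl (n := 3)).toLinearMap)
        (LinearMap.ker_eq_bot.2 (fun x y hxy => by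
          have h' : (hd (n := 3) x, tl (n := 3) x) = (hd y, tl y) := hxy
          rw [← cons_hd_tl x, ← cons_hd_tl y, (Prod.mk.inj h').1,
            (Prod.mk.inj h').2]))).measurableEmbedding
    rw [measurePreserving_split.setIntegral_preimage_emb hemb (fun p : ℝ × E 3 => ‖p.2‖ ^ 2) T,
      ← integral_indicator hTm, integral_prod _ hint]
    exact integral_congr_ae (.of_forall hsl)
  rw [h1]
  have hzero : ∀ t, t ∉ Icc (-1:ℝ) 1 → G t = 0 := by
    intro t ht
    have : slice (n := 3) C t = ∅ := by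
      rw [eq_empty_iff_forall_notMem]
      intro y hy
      refine ht ⟨?_, by simpa using hb _ hy⟩
      have := hb _ (hs _ hy)
      rw [map_neg, hd_cons] at this
      linarith
    simp [hG, this]
  have hGe : ∀ t, G (-t) = G t := by
    intro t
    simp only [hG]
    rw [slice_neg (n := 3) hs, ← integral_indicator (slice_isCompact (n := 3) hC t).measurableSet,
      ← integral_indicator (slice_isCompact (n := 3) hC t).neg.measurableSet,
      ← integral_neg_eq_self (μ := (volume : Measure (E 3)))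
        ((slice (n := 3) C t).indicator fun y => ‖y‖ ^ 2)]
    refine integral_congr_ae (.of_forall fun y => ?_)
    beta_reduce
    by_cases hy : y ∈ -slice (n := 3) C t
    · rw [indicator_of_mem hy, indicator_of_mem (show -y ∈ slice (n := 3) C t from hy), norm_neg]
    · rw [indicator_of_notMem hy,
        indicator_of_notMem (show -y ∉ slice (n := 3) C t from hy)]
  rw [← setIntegral_eq_integral_of_forall_compl_eq_zero hzero, integral_Icc_eq_integral_Ioc,
    ← intervalIntegral.integral_of_le (by norm_num),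
    ← intervalIntegral.integral_add_adjacent_intervals (b := (0:ℝ))
      hGi.intervalIntegrable hGi.intervalIntegrable]
  have := intervalIntegral.integral_comp_neg (f := G) (a := (0:ℝ)) (b := 1)
  simp only [hGe, neg_zero] at this
  rw [← this]
  ring

/-- In an isotropic body the moment across a direction is three times the moment along it. -/
lemma polar_moment_eq {K : Set (E 4)} (hK : IsCompact K)
    (hiso : ∀ v w : E 4, ‖v‖ = ‖w‖ → mom K v = mom K w)
    {v : E 4} (hv : ‖v‖ = 1) (L : E 4 ≃ₗᵢ[ℝ] E 4) (hL : L v = e0 (n := 3)) :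
    ∫ x in L '' K, ‖tl (n := 3) x‖ ^ 2 = 3 * mom K v := by
  rw [(L.measurePreserving).setIntegral_image_emb
    L.toHomeomorph.toMeasurableEquiv.measurableEmbedding]
  have e : ∀ x, ‖tl (n := 3) (L x)‖ ^ 2 = ‖x‖ ^ 2 - ⟪x, v⟫ ^ 2 := by
    intro x
    have h := norm_sq_cons (m := 3) (hd (L x)) (tl (L x))
    rw [cons_hd_tl, L.norm_map, exists_isometry_slice (n := 3) hL] at h
    linarith
  simp only [e]
  have hi : ∀ u : E 4, IntegrableOn (fun x : E 4 => ⟪x, u⟫ ^ 2) K := fun u =>
    (Continuous.continuousOn (by fun_prop)).integrableOn_compact hK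
  have hn : IntegrableOn (fun x : E 4 => ‖x‖ ^ 2) K :=
    (Continuous.continuousOn (by fun_prop)).integrableOn_compact hK
  have hsum : ∫ x in K, ‖x‖ ^ 2 = 4 * mom K v := by
    have e' : ∀ y : E 4, ‖y‖ ^ 2 = ∑ i : Fin 4, ⟪y, EuclideanSpace.single i 1⟫ ^ 2 := fun y => by
      simp [EuclideanSpace.real_norm_sq_eq, EuclideanSpace.inner_single_right]
    simp only [e']
    rw [integral_finsetSum _ fun i _ => hi _]
    show ∑ i : Fin 4, mom K _ = _
    rw [Finset.sum_congr rfl fun i _ => hiso (EuclideanSpace.single i 1) v (by simp [hv])]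
    simp
  rw [integral_sub hn (hi v), hsum]
  show 4 * mom K v - mom K v = _
  ring

/-- A minimiser in position has ratio at least that of the ball. -/
theorem four_core (h : OneD4) {K : Set (E 4)} (hK : IsMin (n := 3) K)
    (hsym : ∀ x ∈ K, -x ∈ K) (hBK : closedBall 0 1 ⊆ K)
    {v : E 4} (hv : ‖v‖ = 1) (hs : supp K v = 1)
    (hiso : ∀ v w : E 4, ‖v‖ = ‖w‖ → mom K v = mom K w) :
    1024 / 81 ≤ ratio K ∧ (ratio K = 1024 / 81 → K = closedBall 0 1) := by
  obtain ⟨L, hL⟩ := exists_frame (n := 3) hv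
  obtain ⟨-, hconc, hanti, -, hV⟩ := profile (n := 2) hK.1 hsym hv L hL
  have hM := profile_moment (n := 2) hK.1 hsym hv L hL
  obtain ⟨hCc, -, hCs, -, hbd, -⟩ := supp_slice (n := 3) hK.1 hsym L hL
  have IH : ∀ Q : Set (E (2 + 1)), IsBody Q →
      3 * π ^ 2 / 4 * volume.real Q ^ 2 ≤ volume.real (projBody Q) := fun Q hQ =>
    (pettyThree_of OneD3.oneD3 Q hQ.compact hQ.convex hQ.nonempty).1
  have hsh := shadow_core_gen (n := 2) (c := 3 * π ^ 2 / 4) (by positivity) IH hK.1 hsym hv L hL
  rw [isMin_projArea hK hsym hv, hs, mul_one] at hsh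
  rw [hs] at hbd
  simp only [hs] at hconc hanti hV hM
  set A : ℝ → ℝ := fun t => volume.real (slice (L '' K) t) with hA
  set f : ℝ → ℝ := fun t => A t ^ (((2 + 1 : ℕ):ℝ)⁻¹) with hf
  set k : ℝ := (4 * π / 3) ^ (((2 + 1 : ℕ):ℝ)⁻¹) with hkdef
  have hk : 0 < k := rpow_pos_of_pos (by positivity) _
  have hk3 : k ^ 3 = 4 * π / 3 := rpow_inv_natCast_pow (by positivity) (by omega)
  set F : ℝ → ℝ := fun t => k⁻¹ * f t with hFdef
  have hFcube : ∀ t, 4 * π / 3 * F t ^ 3 = A t := fun t => by
    show 4 * π / 3 * (k⁻¹ * f t) ^ 3 = _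
    rw [mul_pow, inv_pow, hk3, ← mul_assoc, mul_inv_cancel₀ (by positivity), one_mul]
    exact rpow_inv_natCast_pow measureReal_nonneg (by omega)
  have hFconc : ConcaveOn ℝ (Icc 0 1) F := hconc.smul (inv_nonneg.2 hk.le)
  have hFanti : AntitoneOn F (Icc 0 1) := fun x hx y hy hxy =>
    mul_le_mul_of_nonneg_left (hanti hx hy hxy) (inv_nonneg.2 hk.le)
  have hF0 : ∀ t, 0 ≤ F t := fun t =>
    mul_nonneg (inv_nonneg.2 hk.le) (rpow_nonneg measureReal_nonneg _)
  have hlow : ∀ t ∈ Icc (0:ℝ) 1, √(1 - t ^ 2) ≤ F t := by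
    intro t ht
    refine (pow_le_pow_iff_left₀ (sqrt_nonneg _) (hF0 t) (by norm_num : 3 ≠ 0)).1 ?_
    refine le_of_mul_le_mul_left ?_ (by positivity : (0:ℝ) < 4 * π / 3)
    rw [hFcube, ← vol_ball (sqrt_nonneg _), ← slice_ball (m := 3) ht]
    refine measureReal_mono (fun y hy => ?_)
      (slice_isCompact (n := 3) hCc t).measure_lt_top.ne
    refine image_mono hBK ?_
    rw [LinearIsometryEquiv.image_closedBall, map_zero]
    exact hy
  set V := volume.real K with hVdef
  have hV0 : 0 < V := hK.1.volume_pos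
  set P3 := ∫ t in (0:ℝ)..1, F t ^ 3 with hP3
  have eV : V = 8 * π / 3 * P3 := by
    rw [hV, hP3, intervalIntegral.integral_congr (g := fun t => 4 * π / 3 * F t ^ 3)
      (fun t _ => (hFcube t).symm), intervalIntegral.integral_const_mul]
    ring
  have eM : mom K v = 8 * π / 3 * ∫ t in (0:ℝ)..1, t ^ 2 * F t ^ 3 := by
    rw [hM, intervalIntegral.integral_congr (g := fun t => 4 * π / 3 * (t ^ 2 * F t ^ 3))
      (fun t _ => by
        show t ^ 2 * A t = _
        rw [← hFcube]; ring), intervalIntegral.integral_const_mul]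
    ring
  obtain ⟨hGi, hGeq⟩ := integral_tl_sq hCc hCs hbd
  have hF5 : IntervalIntegrable (fun t => F t ^ 5) volume 0 1 :=
    AntitoneOn.intervalIntegrable (uIcc_of_le (zero_le_one (α := ℝ)) ▸ fun x hx y hy hxy =>
      pow_le_pow_left₀ (hF0 y) (hFanti hx hy hxy) 5)
  have hmom : (∫ t in (0:ℝ)..1, F t ^ 5) ≤ 5 * ∫ t in (0:ℝ)..1, t ^ 2 * F t ^ 3 := by
    have h1 : ∫ t in (0:ℝ)..1, 4 * π / 5 * F t ^ 5 ≤
        ∫ t in (0:ℝ)..1, ∫ y in slice (n := 3) (L '' K) t, ‖y‖ ^ 2 :=
      intervalIntegral.integral_mono_on zero_le_one (hF5.const_mul _) hGi fun t _ =>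
        bathtub (slice_isCompact (n := 3) hCc t) (hF0 t) (hFcube t).symm
    rw [intervalIntegral.integral_const_mul] at h1
    have h2 := polar_moment_eq hK.1.compact hiso hv L hL
    rw [hGeq, eM] at h2
    have hpi := pi_pos
    nlinarith
  obtain ⟨h1, h2⟩ := h F hFconc hFanti hlow hmom
  set J := ∫ t in (0:ℝ)..1, F t ^ 2 with hJ
  have eJ : ∫ t in (0:ℝ)..1, f t ^ 2 = k ^ 2 * J := by
    rw [hJ, ← intervalIntegral.integral_const_mul]
    refine intervalIntegral.integral_congr fun t _ => ?_
    show f t ^ 2 = k ^ 2 * (k⁻¹ * f t) ^ 2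
    field_simp
  have hP : 32 * π ^ 4 / 3 * J ^ 3 ≤ ratio K * V ^ 2 := by
    have hr : ratio K * V ^ 2 = volume.real (projBody K) / V := by
      show volume.real (projBody K) / V ^ 3 * V ^ 2 = _
      field_simp
    rw [hr]
    refine le_trans (le_of_eq ?_) hsh
    show _ = 3 * π ^ 2 / 4 * (2 * ∫ t in (0:ℝ)..1, f t ^ 2) ^ (2 + 1)
    rw [eJ, show (2 * (k ^ 2 * J)) ^ (2 + 1) = 8 * (k ^ 3) ^ 2 * J ^ 3 by ring, hk3]
    ring
  have h3 : 1024 / 81 * V ^ 2 ≤ 32 * π ^ 4 / 3 * J ^ 3 := by
    refine le_trans (le_of_eq ?_) (mul_le_mul_of_nonneg_left h1 (by positivity : 0 ≤ 32 * π ^ 4 / 3))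
    rw [eV]
    have := pi_pos.ne'
    field_simp
    ring
  refine ⟨le_of_mul_le_mul_right (h3.trans hP) (by positivity), fun heq => ?_⟩
  rw [heq] at hP
  have hJ3 : 2048 / (243 * π ^ 2) * P3 ^ 2 = J ^ 3 := by
    refine mul_left_cancel₀ (by positivity : (32 * π ^ 4 / 3 : ℝ) ≠ 0)
      (Eq.trans ?_ (le_antisymm h3 hP))
    rw [eV]
    have := pi_pos.ne'
    field_simp
    ring
  have hF := h2 hJ3
  refine (eq_of_subset_of_volume (isCompact_closedBall _ _) hK.1 hBK (le_of_eq ?_)).symm
  have hsB : supp (closedBall (0 : E 4) 1) v = 1 := by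
    refine le_antisymm (csSup_le ((nonempty_closedBall.2 zero_le_one).image _) ?_) ?_
    · rintro _ ⟨x, hx, rfl⟩
      have := real_inner_le_norm x v
      rw [hv, mul_one] at this
      exact this.trans (mem_closedBall_zero_iff.1 hx)
    · have := le_supp (isCompact_closedBall (0 : E 4) 1) v (mem_closedBall_zero_iff.2 hv.le)
      rwa [real_inner_self_eq_norm_sq, hv, one_pow] at this
  obtain ⟨-, -, -, -, hVB⟩ := profile (n := 2) (isBody_ball (m := 4))
    (fun x hx => by simpa using hx) hv L hL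
  rw [← hVdef, hV, hVB, hsB, LinearIsometryEquiv.image_closedBall, map_zero,
    intervalIntegral.integral_of_le zero_le_one, intervalIntegral.integral_of_le zero_le_one,
    integral_Ioc_eq_integral_Ioo, integral_Ioc_eq_integral_Ioo]
  congr 1
  refine setIntegral_congr_fun measurableSet_Ioo fun t ht => ?_
  show A t = volume.real (slice (n := 3) (closedBall (0 : E 4) 1) t)
  rw [slice_ball (m := 3) (Ioo_subset_Icc_self ht), vol_ball (sqrt_nonneg _), ← hF t ht, hFcube]

/-- A symmetric minimiser: the bound, and only ellipsoids attain it. -/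
theorem four_symm (h : OneD4) {K : Set (E 4)} (hK : IsMin (n := 3) K)
    (hsym : ∀ x ∈ K, -x ∈ K) :
    1024 / 81 ≤ ratio K ∧
      (ratio K = 1024 / 81 → ∃ T : E 4 ≃ₗ[ℝ] E 4, K = T '' closedBall 0 1) := by
  obtain ⟨S, hS, hSs, hB, ⟨v, hv, hsv⟩, hiso⟩ := exists_position_touch (n := 2) hK hsym
  have hr : ratio (S '' K) = ratio K := ratio_linear hK.1.compact hK.1.convex S
  obtain ⟨h1, h2⟩ := four_core h hS hSs hB hv hsv hiso
  refine ⟨hr ▸ h1, fun he => ⟨S.symm, ?_⟩⟩
  rw [← h2 (hr.trans he), ← image_comp]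
  simp

lemma ratio_ellipsoid_four (a : E 4) (T : E 4 ≃ₗ[ℝ] E 4) :
    ratio ((fun x => a + x) '' (T '' closedBall 0 1)) = 1024 / 81 := by
  rw [ratio_translate (n := 3), ratio_linear (n := 3) (isCompact_closedBall _ _)
    (convex_closedBall _ _), ratio_ball_four]

/-- Petty's inequality in `ℝ⁴`, with equality exactly for ellipsoids. -/
theorem pettyFour_of (h : OneD4) : PettyFour := by
  intro K hKc hKv hKi
  have hK : IsBody K := ⟨hKc, hKv, hKi⟩
  obtain ⟨M, hM, hMs⟩ := exists_isMin 3
  have hall : ∀ L : Set (E 4), IsBody L → 1024 / 81 ≤ ratio L := fun L hL =>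
    (four_symm h hM hMs).1.trans (hM.2 L hL)
  have hV := hK.volume_pos
  refine ⟨(le_ratio_iff (n := 3) hK).1 (hall K hK), fun he => ?_, ?_⟩
  · have hr : ratio K = 1024 / 81 := by
      show volume.real (projBody K) / volume.real K ^ 3 = _
      rw [← he, mul_div_assoc, div_self (by positivity), mul_one]
    have hmin : IsMin (n := 3) K := ⟨hK, fun L hL => hr.trans_le (hall L hL)⟩
    obtain ⟨z, hz, hzs, -⟩ := isMin_exists_symm (n := 2) hmin
    obtain ⟨T, hT⟩ := (four_symm h hz hzs).2 ((ratio_translate (n := 3) K z).trans hr)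
    exact ⟨-z, T, by rw [← hT, image_image]; simp⟩
  · rintro ⟨a, T, rfl⟩
    have := ratio_ellipsoid_four a T
    rw [ratio, div_eq_iff (by positivity)] at this
    exact this.symm

end Vale.Agent.P237.Sharp
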