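import Vale.Agent.P237.AllN.Reduce
import Vale.Agent.P237.Univ.John
import Vale.Agent.P237.Sharp.OneD5.Spec

/-!
# P237, sharp route: Petty's inequality in `ℝ⁵` from the one-dimensional inequality `OneD5`

A minimiser is put in John position, with contacts `u i` and weights `c i` of sum `5`. The bathtub
bound in each slice turns `∑ c i ∫ hw (5 ⟪u i, x⟫² - ‖x‖²) = 0` into a nonnegative average of the
weighted moments, so some contact direction satisfies the hypothesis of the slicing step, whose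
induction hypothesis is the sharp inequality in `ℝ⁴`.
-/

open MeasureTheory Set Real Metric
open scoped Pointwise RealInnerProductSpace

namespace Vale.Agent.P237.Sharp

/-- Petty's inequality in `ℝ⁵` with its equality case. -/
def PettyFive : Prop :=
  ∀ K : Set (E 5), IsCompact K → Convex ℝ K → (interior K).Nonempty →
    3375 * π ^ 4 / 16384 * volume.real K ^ 4 ≤ volume.real (projBody K) ∧
      (3375 * π ^ 4 / 16384 * volume.real K ^ 4 = volume.real (projBody K) ↔
        ∃ (a : E 5) (T : E 5 ≃ₗ[ℝ] E 5), K = (fun x => a + x) '' (T '' Metric.closedBall 0 1))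

lemma kap_four_eq : kap 4 = π ^ 2 / 2 := by
  rw [kap, vol_ball_four zero_le_one, one_pow, mul_one]

lemma kap_five_eq : kap 5 = 8 * π ^ 2 / 15 := by
  have h3 : kap 3 = 4 * π / 3 := by rw [kap, vol_ball zero_le_one, one_pow, mul_one]
  rw [kap_rec 3, h3]
  push_cast
  ring

lemma petty_five_eq : petty 5 = 3375 * π ^ 4 / 16384 := by
  show kap 4 ^ 5 / kap 5 ^ 3 = _
  rw [kap_four_eq, kap_five_eq]
  have := pi_pos.ne'
  field_simp
  ring

/-- Integrating a function over a symmetric body slice by slice. -/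
lemma integral_slices_even {n : ℕ} {C : Set (E (n + 1))} (hC : IsCompact C)
    (hs : ∀ x ∈ C, -x ∈ C) (hb : ∀ x ∈ C, hd x ≤ 1) {H : ℝ → E n → ℝ}
    (hH : Continuous fun p : ℝ × E n => H p.1 p.2) (hev : ∀ t y, H (-t) (-y) = H t y) :
    IntervalIntegrable (fun t => ∫ y in slice C t, H t y) volume 0 1 ∧
      ∫ x in C, H (hd x) (tl x) = 2 * ∫ t in (0:ℝ)..1, ∫ y in slice C t, H t y := by
  set G : ℝ → ℝ := fun t => ∫ y in slice C t, H t y with hG
  set T : Set (ℝ × E n) := {p | cons p.1 p.2 ∈ C} with hT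
  have hTm : MeasurableSet T := hC.measurableSet.preimage continuous_cons.measurable
  have hpre : (fun x : E (n + 1) => (hd x, tl x)) ⁻¹' T = C := by
    ext x; simp [hT]
  have hTc : IsCompact T := by
    have : T = (fun x : E (n + 1) => (hd x, tl x)) '' C := by
      ext p
      exact ⟨fun hp => ⟨_, hp, by simp⟩, by rintro ⟨x, hx, rfl⟩; simpa [hT] using hx⟩
    rw [this]
    exact hC.image (hd.continuous.prodMk tl.continuous)
  have hint : Integrable (T.indicator fun p => H p.1 p.2) (volume.prod volume) :=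
    (hH.continuousOn.integrableOn_compact hTc).integrable_indicator hTm
  have hsl : ∀ t, (∫ y, T.indicator (fun p => H p.1 p.2) (t, y)) = G t := by
    intro t
    rw [show (fun y => T.indicator (fun p => H p.1 p.2) (t, y)) =
        (slice C t).indicator (fun y => H t y) from by
      funext y; exact (Set.indicator_comp_right (Prod.mk t)
        (g := fun p : ℝ × E n => H p.1 p.2) (x := y)).symm,
      integral_indicator (slice_isCompact hC t).measurableSet]
  have hGi : Integrable G := hint.integral_prod_left.congr (.of_forall hsl)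
  refine ⟨hGi.intervalIntegrable, ?_⟩
  have h1 : ∫ x in C, H (hd x) (tl x) = ∫ t, G t := by
    conv_lhs => rw [← hpre]
    have hemb : MeasurableEmbedding (fun x : E (n + 1) => (hd x, tl x)) :=
      (LinearMap.isClosedEmbedding_of_injective
        (f := LinearMap.prod (hd (n := n)).toLinearMap (tl (n := n)).toLinearMap)
        (LinearMap.ker_eq_bot.2 (fun x y hxy => by
          have h' : (hd x, tl x) = (hd y, tl y) := hxy
          rw [← cons_hd_tl x, ← cons_hd_tl y, (Prod.mk.inj h').1,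
            (Prod.mk.inj h').2]))).measurableEmbedding
    rw [measurePreserving_split.setIntegral_preimage_emb hemb (fun p : ℝ × E n => H p.1 p.2) T,
      ← integral_indicator hTm, integral_prod _ hint]
    exact integral_congr_ae (.of_forall hsl)
  rw [h1]
  have hzero : ∀ t, t ∉ Icc (-1:ℝ) 1 → G t = 0 := by
    intro t ht
    have : slice C t = ∅ := by
      rw [eq_empty_iff_forall_notMem]
      intro y hy
      refine ht ⟨?_, by simpa using hb _ hy⟩
      have := hb _ (hs _ hy)
      rw [map_neg, hd_cons] at this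
      linarith
    simp [hG, this]
  have hGe : ∀ t, G (-t) = G t := by
    intro t
    simp only [hG]
    rw [slice_neg hs, ← integral_indicator (slice_isCompact hC t).measurableSet,
      ← integral_indicator (slice_isCompact hC t).neg.measurableSet,
      ← integral_neg_eq_self (μ := (volume : Measure (E n)))
        ((slice C t).indicator fun y => H t y)]
    refine integral_congr_ae (.of_forall fun y => ?_)
    beta_reduce
    by_cases hy : y ∈ -slice C t
    · rw [indicator_of_mem hy, indicator_of_mem (show -y ∈ slice C t from hy)]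
      have := hev t (-y)
      rwa [neg_neg] at this
    · rw [indicator_of_notMem hy, indicator_of_notMem (show -y ∉ slice C t from hy)]
  rw [← setIntegral_eq_integral_of_forall_compl_eq_zero hzero, integral_Icc_eq_integral_Ioc,
    ← intervalIntegral.integral_of_le (by norm_num),
    ← intervalIntegral.integral_add_adjacent_intervals (b := (0:ℝ))
      hGi.intervalIntegrable hGi.intervalIntegrable]
  have := intervalIntegral.integral_comp_neg (f := G) (a := (0:ℝ)) (b := 1)
  simp only [hGe, neg_zero] at this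
  rw [← this, two_mul]

/-- A radial integral over a ball in `ℝ⁴`. -/
lemma radial_ball_four (g : ℝ → ℝ) {r : ℝ} (hr : 0 ≤ r) :
    ∫ y in closedBall (0 : E 4) r, g ‖y‖ = 2 * π ^ 2 * ∫ x in (0:ℝ)..r, x ^ 3 * g x := by
  have e : (fun y : E 4 => (closedBall (0 : E 4) r).indicator (fun y => g ‖y‖) y) =
      fun y => (Iic r).indicator g ‖y‖ := by
    funext y
    by_cases h : ‖y‖ ≤ r
    · rw [indicator_of_mem (mem_closedBall_zero_iff.2 h), indicator_of_mem (mem_Iic.2 h)]
    · rw [indicator_of_notMem (mt mem_closedBall_zero_iff.1 h),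
        indicator_of_notMem (mt mem_Iic.1 h)]
  rw [← integral_indicator (isCompact_closedBall _ _).measurableSet, e,
    integral_fun_norm_addHaar, finrank_euclideanSpace_fin]
  have hv : (volume : Measure (E 4)).real (ball 0 1) = π ^ 2 / 2 := by
    rw [measureReal_def, ← Measure.addHaar_closedBall_eq_addHaar_ball, ← measureReal_def,
      vol_ball_four zero_le_one, one_pow, mul_one]
  have e2 : ∫ x in Ioi (0:ℝ), x ^ (4 - 1) • (Iic r).indicator g x =
      ∫ x in (0:ℝ)..r, x ^ 3 * g x := by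
    rw [intervalIntegral.integral_of_le hr, show Ioc (0:ℝ) r = Iic r ∩ Ioi 0 from by
        rw [inter_comm, Ioi_inter_Iic],
      ← Measure.restrict_restrict measurableSet_Iic, ← integral_indicator measurableSet_Iic]
    refine integral_congr_ae (.of_forall fun x => ?_)
    by_cases h : x ∈ Iic r <;> simp [h]
  rw [hv, e2]
  simp only [nsmul_eq_mul, smul_eq_mul]
  push_cast
  ring

/-- Bathtub bound for an antitone radial weight. -/
lemma bathtub_four {S : Set (E 4)} (hS : IsCompact S) {r : ℝ} (hr : 0 ≤ r)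
    (hv : volume.real S = π ^ 2 / 2 * r ^ 4) {g : ℝ → ℝ} (hg : Continuous g)
    (ha : AntitoneOn g (Ici 0)) :
    ∫ y in S, g ‖y‖ ≤ 2 * π ^ 2 * ∫ x in (0:ℝ)..r, x ^ 3 * g x := by
  rw [← radial_ball_four g hr]
  have hB : IsCompact (closedBall (0 : E 4) r) := isCompact_closedBall _ _
  have hc : Continuous fun y : E 4 => g ‖y‖ - g r := by fun_prop
  have h : ∫ y in S, (g ‖y‖ - g r) ≤ ∫ y in closedBall (0 : E 4) r, (g ‖y‖ - g r) := by
    rw [← integral_indicator hB.measurableSet, ← integral_indicator hS.measurableSet]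
    refine integral_mono ((hc.continuousOn.integrableOn_compact hS).integrable_indicator
      hS.measurableSet) ((hc.continuousOn.integrableOn_compact hB).integrable_indicator
      hB.measurableSet) fun y => ?_
    by_cases h1 : y ∈ closedBall (0 : E 4) r <;> by_cases h2 : y ∈ S <;>
      simp only [indicator_of_mem, indicator_of_notMem, h1, h2, not_false_iff, le_refl] <;>
      rw [mem_closedBall_zero_iff] at h1
    · exact sub_nonneg.2 (ha (norm_nonneg y) hr h1)
    · exact sub_nonpos.2 (ha hr (norm_nonneg y) (not_le.1 h1).le)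
  have hi : ∀ T : Set (E 4), IsCompact T →
      ∫ y in T, (g ‖y‖ - g r) = (∫ y in T, g ‖y‖) - g r * volume.real T := by
    intro T hT
    have hq : IntegrableOn (fun y : E 4 => g ‖y‖) T :=
      (Continuous.continuousOn (by fun_prop)).integrableOn_compact hT
    rw [integral_sub hq (continuousOn_const.integrableOn_compact hT), setIntegral_const,
      smul_eq_mul, mul_comm (volume.real T)]
  rw [hi _ hS, hi _ hB, hv, vol_ball_four hr] at h
  linarith

lemma continuous_momW : Continuous fun p : ℝ × ℝ => momW p.1 p.2 := by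
  unfold momW
  exact intervalIntegral.continuous_parametric_intervalIntegral_of_continuous (a₀ := 0)
    (f := fun p : ℝ × ℝ => fun x => x ^ 3 * hw5 (p.1 ^ 2 + x ^ 2) * (4 * p.1 ^ 2 - x ^ 2))
    (by
      simp only [Function.uncurry_def]
      fun_prop) continuous_snd

/-- The profile of the slices along a unit direction, in units of the unit ball of `ℝ⁴`. -/
noncomputable def prof5 (K : Set (E 5)) (u : E 5) (t : ℝ) : ℝ :=
  ((π ^ 2 / 2) ^ (((3 + 1 : ℕ):ℝ)⁻¹))⁻¹ * AllN.profAt (k := 3) K u t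

/-- Everything the slices along a contact direction give. -/
lemma prof5_spec {K : Set (E 5)} (hK : IsMin (n := 4) K) (hsym : ∀ x ∈ K, -x ∈ K)
    (hBK : closedBall 0 1 ⊆ K) {u : E 5} (hu : ‖u‖ = 1) (hs : supp K u = 1) :
    ConcaveOn ℝ (Icc 0 1) (prof5 K u) ∧ AntitoneOn (prof5 K u) (Icc 0 1) ∧
      (∀ t ∈ Icc (0:ℝ) 1, √(1 - t ^ 2) ≤ prof5 K u t) ∧
      volume.real K = π ^ 2 * ∫ t in (0:ℝ)..1, prof5 K u t ^ 4 ∧
      2 * (1024 / 81) * (∫ t in (0:ℝ)..1, prof5 K u t ^ 3) ^ 4 ≤
        ratio K * (∫ t in (0:ℝ)..1, prof5 K u t ^ 4) ^ 3 ∧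
      ∫ x in K, hw5 (‖x‖ ^ 2) * (5 * ⟪u, x⟫ ^ 2 - ‖x‖ ^ 2) ≤
        4 * π ^ 2 * ∫ t in (0:ℝ)..1, momW t (prof5 K u t) := by
  obtain ⟨hconc, hanti, hnn, -, hV, -⟩ := AllN.profAt_spec (k := 3) hK.1 hsym hs
  set k : ℝ := (π ^ 2 / 2) ^ (((3 + 1 : ℕ):ℝ)⁻¹) with hkdef
  have hk : 0 < k := rpow_pos_of_pos (by positivity) _
  have hk4 : k ^ 4 = π ^ 2 / 2 := rpow_inv_natCast_pow (n := 3 + 1) (by positivity) (by omega)
  set f := AllN.profAt (k := 3) K u with hf
  have hF : ∀ t, prof5 K u t = k⁻¹ * f t := fun t => rfl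
  have hF0 : ∀ t, 0 ≤ prof5 K u t := fun t => mul_nonneg (inv_nonneg.2 hk.le) (hnn t)
  have hL : AllN.frameAt u u = e0 := by
    have := AllN.frameAt_spec (n := 4) (w := u) (fun h => by simp [h] at hu)
    rwa [hu, inv_one, one_smul] at this
  set L := AllN.frameAt u
  have hF4 : ∀ t, π ^ 2 / 2 * prof5 K u t ^ 4 = volume.real (slice (n := 4) (L '' K) t) := by
    intro t
    rw [hF, mul_pow, inv_pow, hk4, ← mul_assoc, mul_inv_cancel₀ (by positivity), one_mul, hf,
      AllN.profAt, hu, inv_one, one_mul]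
    exact rpow_inv_natCast_pow measureReal_nonneg (by omega)
  obtain ⟨hCc, -, hCs, -, hbd, -⟩ := supp_slice (n := 4) hK.1 hsym L hL
  rw [hs] at hbd
  have hpow : ∀ j : ℕ, (∫ t in (0:ℝ)..1, f t ^ j) = k ^ j * ∫ t in (0:ℝ)..1, prof5 K u t ^ j := by
    intro j
    rw [← intervalIntegral.integral_const_mul]
    refine intervalIntegral.integral_congr fun t _ => ?_
    rw [hF, mul_pow, inv_pow, ← mul_assoc, mul_inv_cancel₀ (pow_ne_zero _ hk.ne'), one_mul]
  have hanti' : AntitoneOn (prof5 K u) (Icc 0 1) := fun x hx y hy hxy =>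
    mul_le_mul_of_nonneg_left (hanti hx hy hxy) (inv_nonneg.2 hk.le)
  refine ⟨hconc.smul (inv_nonneg.2 hk.le), hanti', fun t ht => ?_, ?_, ?_, ?_⟩
  · refine (pow_le_pow_iff_left₀ (sqrt_nonneg _) (hF0 t) (by norm_num : 4 ≠ 0)).1 ?_
    refine le_of_mul_le_mul_left ?_ (by positivity : (0:ℝ) < π ^ 2 / 2)
    rw [hF4, ← vol_ball_four (sqrt_nonneg _), ← slice_ball (m := 4) ht]
    refine measureReal_mono (fun y hy => ?_)
      (slice_isCompact (n := 4) hCc t).measure_lt_top.ne
    refine image_mono hBK ?_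
    rw [LinearIsometryEquiv.image_closedBall, map_zero]
    exact hy
  · rw [hV, hu, hpow, hk4]
    ring
  · have IH : ∀ Q : Set (E (3 + 1)), IsBody Q →
        1024 / 81 * volume.real Q ^ 3 ≤ volume.real (projBody Q) := fun Q hQ =>
      (pettyFour_of OneD4.oneD4 Q hQ.compact hQ.convex hQ.nonempty).1
    have h := AllN.slice_bound (k := 3) (by positivity) IH hK hsym hs
    rw [← hf, hpow, hpow, mul_pow, mul_pow, ← pow_mul, ← pow_mul] at h
    refine le_of_mul_le_mul_left ?_ (pow_pos hk 12)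
    linarith
  · set H : ℝ → E 4 → ℝ := fun t y => hw5 (t ^ 2 + ‖y‖ ^ 2) * (4 * t ^ 2 - ‖y‖ ^ 2) with hH
    obtain ⟨hGi, hGeq⟩ := integral_slices_even (n := 4) hCc hCs hbd (H := H) (by fun_prop)
      (fun t y => by simp [hH])
    have e1 : ∫ x in K, hw5 (‖x‖ ^ 2) * (5 * ⟪u, x⟫ ^ 2 - ‖x‖ ^ 2) =
        ∫ x in L '' K, H (hd x) (tl x) := by
      rw [(L.measurePreserving).setIntegral_image_emb
        L.toHomeomorph.toMeasurableEquiv.measurableEmbedding]
      refine setIntegral_congr_fun hK.1.compact.measurableSet fun x _ => ?_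
      have hn : ‖x‖ ^ 2 = hd (n := 4) (L x) ^ 2 + ‖tl (n := 4) (L x)‖ ^ 2 := by
        have h := norm_sq_cons (m := 4) (hd (L x)) (tl (L x))
        rwa [cons_hd_tl, L.norm_map] at h
      show _ = hw5 _ * _
      rw [← hn, real_inner_comm x u, ← exists_isometry_slice (n := 4) hL x, hn]
      ring
    rw [e1, hGeq]
    have hi : IntervalIntegrable (fun t => momW t (prof5 K u t)) volume 0 1 := by
      obtain ⟨M, hM⟩ := (isCompact_Icc.prod isCompact_Icc).exists_bound_of_continuousOn
        (s := Icc (0:ℝ) 1 ×ˢ Icc (0:ℝ) (prof5 K u 0)) continuous_momW.continuousOn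
      have hm : Measurable (prof5 K u) := by
        unfold prof5 AllN.profAt
        exact (((measurable_slice_volume (hK.1.compact.image
          (AllN.frameAt u).continuous).measurableSet).comp
            (measurable_id.const_mul _)).pow_const _).const_mul _
      have hp : Measurable fun t : ℝ => (t, prof5 K u t) := measurable_id.prodMk hm
      have hgm : Measurable ((fun p : ℝ × ℝ => momW p.1 p.2) ∘ fun t => (t, prof5 K u t)) :=
        continuous_momW.measurable.comp hp
      simp only [Function.comp_def] at hgm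
      refine OneD3.intervalIntegrable_of_bound (f := fun t => momW t (prof5 K u t)) hgm (M := M)
        fun t ht => ?_
      have hmem : (t, prof5 K u t) ∈ Icc (0:ℝ) 1 ×ˢ Icc (0:ℝ) (prof5 K u 0) :=
        mk_mem_prod ht ⟨hF0 t, hanti' ⟨le_rfl, zero_le_one⟩ ht ht.1⟩
      have hb := hM _ hmem
      rw [Real.norm_eq_abs] at hb
      exact hb
    have hpt : ∀ t ∈ Icc (0:ℝ) 1, (∫ y in slice (n := 4) (L '' K) t, H t y) ≤
        2 * π ^ 2 * momW t (prof5 K u t) := fun t ht => by
      have hb := bathtub_four (slice_isCompact (n := 4) hCc t) (hF0 t) (hF4 t).symm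
        (g := fun r => hw5 (t ^ 2 + r ^ 2) * (4 * t ^ 2 - r ^ 2)) (by fun_prop)
        (hw5_radial_antitone ht)
      simp only [momW, hH, mul_assoc] at hb ⊢
      exact hb
    have h := intervalIntegral.integral_mono_on zero_le_one hGi (hi.const_mul (2 * π ^ 2)) hpt
    rw [intervalIntegral.integral_const_mul] at h
    linarith

lemma cst5_pos : 0 < cst5 := div_pos (rpow_pos_of_pos (by positivity) _) (by norm_num)

lemma cst5_cube : cst5 ^ 3 = (3 * π / 16) ^ 4 / (8 / 15) ^ 3 := by
  rw [cst5, div_pow, ← rpow_natCast ((3 * π / 16) ^ (4 / 3 : ℝ)) 3, ← rpow_mul (by positivity),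
    ← rpow_natCast (3 * π / 16) 4]
  norm_num

/-- A minimiser in John position has ratio at least that of the ball. -/
theorem five_core (h : OneD5) {K : Set (E 5)} (hK : IsMin (n := 4) K)
    (hsym : ∀ x ∈ K, -x ∈ K) (hBK : closedBall 0 1 ⊆ K)
    {ι : Type} [Fintype ι] {c : ι → ℝ} {u : ι → E 5} (hc : ∀ i, 0 ≤ c i) (hu : ∀ i, ‖u i‖ = 1)
    (hs : ∀ i, supp K (u i) = 1) (hsum : ∀ x, ∑ i, c i * ⟪u i, x⟫ ^ 2 = ‖x‖ ^ 2) :
    3375 * π ^ 4 / 16384 ≤ ratio K ∧
      (ratio K = 3375 * π ^ 4 / 16384 → K = closedBall 0 1) := by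
  have hn : ∀ y : E 5, ∑ j : Fin 5, ⟪y, EuclideanSpace.single j 1⟫ ^ 2 = ‖y‖ ^ 2 := fun y => by
    simp [EuclideanSpace.real_norm_sq_eq, EuclideanSpace.inner_single_right]
  have hc5 : ∑ i, c i = 5 := by
    have e : ∑ j : Fin 5, ∑ i, c i * ⟪u i, EuclideanSpace.single j 1⟫ ^ 2 = 5 := by
      simp [hsum]
    rw [Finset.sum_comm] at e
    rw [← e]
    refine Finset.sum_congr rfl fun i _ => ?_
    rw [← Finset.mul_sum, hn, hu, one_pow, mul_one]
  set M : ι → ℝ := fun i => ∫ t in (0:ℝ)..1, momW t (prof5 K (u i) t) with hM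
  have hM0 : 0 ≤ ∑ i, c i * M i := by
    have hi : ∀ i, IntegrableOn (fun x : E 5 => hw5 (‖x‖ ^ 2) * (5 * ⟪u i, x⟫ ^ 2 - ‖x‖ ^ 2)) K :=
      fun i => (Continuous.continuousOn (by fun_prop)).integrableOn_compact hK.1.compact
    have e0' : ∑ i, c i * ∫ x in K, hw5 (‖x‖ ^ 2) * (5 * ⟪u i, x⟫ ^ 2 - ‖x‖ ^ 2) = 0 := by
      simp only [← integral_const_mul]
      rw [← integral_finsetSum _ fun i _ => (hi i).const_mul (c i)]
      refine integral_eq_zero_of_ae (.of_forall fun x => ?_)
      simp only [Pi.zero_apply]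
      rw [show (fun i => c i * (hw5 (‖x‖ ^ 2) * (5 * ⟪u i, x⟫ ^ 2 - ‖x‖ ^ 2))) =
          fun i => 5 * hw5 (‖x‖ ^ 2) * (c i * ⟪u i, x⟫ ^ 2) - hw5 (‖x‖ ^ 2) * ‖x‖ ^ 2 * c i from
        funext fun i => by ring, Finset.sum_sub_distrib, ← Finset.mul_sum, ← Finset.mul_sum,
        hsum, hc5]
      ring
    have h4 := Finset.sum_le_sum fun i (_ : i ∈ Finset.univ) =>
      mul_le_mul_of_nonneg_left (prof5_spec hK hsym hBK (hu i) (hs i)).2.2.2.2.2 (hc i)
    rw [e0', show (∑ i, c i * (4 * π ^ 2 * ∫ t in (0:ℝ)..1, momW t (prof5 K (u i) t))) =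
      4 * π ^ 2 * ∑ i, c i * M i by
        rw [Finset.mul_sum]; exact Finset.sum_congr rfl fun i _ => by simp only [hM]; ring] at h4
    exact nonneg_of_mul_nonneg_right h4 (by positivity)
  obtain ⟨i, hi0⟩ : ∃ i, 0 ≤ M i := by
    by_contra hcon
    push Not at hcon
    obtain ⟨j, -, hj⟩ : ∃ j ∈ Finset.univ, c j ≠ 0 := Finset.exists_ne_zero_of_sum_ne_zero (by
      rw [hc5]; norm_num)
    have : ∑ i, c i * M i < 0 := by
      calc ∑ i, c i * M i < ∑ i : ι, (0:ℝ) := by
            refine Finset.sum_lt_sum (fun l _ => mul_nonpos_of_nonneg_of_nonpos (hc l) (hcon l).le)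
              ⟨j, Finset.mem_univ j, mul_neg_of_pos_of_neg (lt_of_le_of_ne (hc j) (Ne.symm hj))
                (hcon j)⟩
        _ = 0 := Finset.sum_const_zero
    linarith
  obtain ⟨hconc, hanti, hlow, hV, hR, -⟩ := prof5_spec hK hsym hBK (hu i) (hs i)
  obtain ⟨h1, h2⟩ := h _ hconc hanti hlow
  set P := ∫ t in (0:ℝ)..1, prof5 K (u i) t ^ 3 with hP
  set Z := ∫ t in (0:ℝ)..1, prof5 K (u i) t ^ 4 with hZ
  have hZ0 : 0 < Z := by
    have := hK.1.volume_pos
    rw [hV] at this
    exact pos_of_mul_pos_right this (by positivity)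
  have hP0 : 0 ≤ P := intervalIntegral.integral_nonneg zero_le_one fun t ht =>
    pow_nonneg ((sqrt_nonneg _).trans (hlow t ht)) 3
  have hPp : (P ^ (4 / 3 : ℝ)) ^ 3 = P ^ 4 := by
    rw [← rpow_natCast (P ^ (4 / 3 : ℝ)) 3, ← rpow_mul hP0, ← rpow_natCast P 4]
    norm_num
  have h3 : cst5 * Z ≤ P ^ (4 / 3 : ℝ) := by linarith [show M i = _ from rfl]
  have hconst : 2 * (1024 / 81) * cst5 ^ 3 = 3375 * π ^ 4 / 16384 := by rw [cst5_cube]; ring
  have hlb : 3375 * π ^ 4 / 16384 ≤ ratio K := by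
    refine le_of_mul_le_mul_right ?_ (pow_pos hZ0 3)
    refine le_trans ?_ hR
    rw [← hconst, mul_assoc _ (cst5 ^ 3), ← mul_pow, ← hPp]
    exact mul_le_mul_of_nonneg_left (pow_le_pow_left₀ (mul_pos cst5_pos hZ0).le h3 3) (by norm_num)
  refine ⟨hlb, fun he => ?_⟩
  rw [he, ← hconst, mul_assoc _ (cst5 ^ 3), ← mul_pow, ← hPp] at hR
  have h5 : P ^ (4 / 3 : ℝ) ≤ cst5 * Z :=
    (pow_le_pow_iff_left₀ (rpow_nonneg hP0 _) (mul_pos cst5_pos hZ0).le (by norm_num : 3 ≠ 0)).1
      (le_of_mul_le_mul_left hR (by norm_num))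
  have hFc := h2 (le_antisymm h1 (by
    have : M i = ∫ t in (0:ℝ)..1, momW t (prof5 K (u i) t) := rfl
    linarith))
  refine (eq_of_subset_of_volume (isCompact_closedBall _ _) hK.1 hBK (le_of_eq ?_)).symm
  show volume.real K = kap 5
  rw [kap_five_eq, hV, hZ, AllN.integral_congr_Ioo (g' := fun t => (1 - t ^ 2) ^ 2) fun t ht => by
    rw [hFc t ht, show √(1 - t ^ 2) ^ 4 = (√(1 - t ^ 2) ^ 2) ^ 2 by ring,
      sq_sqrt (by nlinarith [ht.1, ht.2])]]
  have : ∫ t in (0:ℝ)..1, (1 - t ^ 2) ^ 2 = 8 / 15 := by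
    rw [intervalIntegral.integral_congr (g := fun t : ℝ => 1 - 2 * t ^ 2 + t ^ 4)
      fun t _ => by ring,
      intervalIntegral.integral_add (Continuous.intervalIntegrable (by fun_prop) _ _)
        (Continuous.intervalIntegrable (by fun_prop) _ _),
      intervalIntegral.integral_sub (Continuous.intervalIntegrable (by fun_prop) _ _)
        (Continuous.intervalIntegrable (by fun_prop) _ _),
      intervalIntegral.integral_const_mul, integral_pow, integral_pow]
    norm_num
  rw [this]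
  ring

/-- A symmetric minimiser: the bound, and only ellipsoids attain it. -/
theorem five_symm (h : OneD5) {K : Set (E 5)} (hK : IsMin (n := 4) K)
    (hsym : ∀ x ∈ K, -x ∈ K) :
    3375 * π ^ 4 / 16384 ≤ ratio K ∧
      (ratio K = 3375 * π ^ 4 / 16384 → ∃ T : E 5 ≃ₗ[ℝ] E 5, K = T '' closedBall 0 1) := by
  obtain ⟨T, ι, hι, c, u, hB, hc, hu, hs, hsum⟩ := Univ.johnU 5 (by norm_num) K hK.1 hsym
  have hTs : ∀ x ∈ T '' K, -x ∈ T '' K := by
    rintro _ ⟨x, hx, rfl⟩; exact ⟨-x, hsym x hx, map_neg T x⟩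
  have hr : ratio (T '' K) = ratio K := ratio_linear hK.1.compact hK.1.convex T
  obtain ⟨h1, h2⟩ := five_core h (isMin_linear hK T) hTs hB hc hu hs hsum
  refine ⟨hr ▸ h1, fun he => ⟨T.symm, ?_⟩⟩
  rw [← h2 (hr.trans he), ← image_comp]
  simp

/-- Petty's inequality in `ℝ⁵`, with equality exactly for ellipsoids. -/
theorem pettyFive_of (h : OneD5) : PettyFive := by
  intro K hKc hKv hKi
  have hK : IsBody K := ⟨hKc, hKv, hKi⟩
  obtain ⟨M, hM, hMs⟩ := exists_isMin 4
  have hall : ∀ L : Set (E 5), IsBody L → 3375 * π ^ 4 / 16384 ≤ ratio L := fun L hL =>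
    (five_symm h hM hMs).1.trans (hM.2 L hL)
  have hV := hK.volume_pos
  refine ⟨(le_ratio_iff (n := 4) hK).1 (hall K hK), fun he => ?_, ?_⟩
  · have hr : ratio K = 3375 * π ^ 4 / 16384 := by
      show volume.real (projBody K) / volume.real K ^ 4 = _
      rw [← he, mul_div_assoc, div_self (by positivity), mul_one]
    have hmin : IsMin (n := 4) K := ⟨hK, fun L hL => hr.trans_le (hall L hL)⟩
    obtain ⟨z, hz, hzs, -⟩ := isMin_exists_symm (n := 3) hmin
    obtain ⟨T, hT⟩ := (five_symm h hz hzs).2 ((ratio_translate (n := 4) K z).trans hr)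
    exact ⟨-z, T, by rw [← hT, image_image]; simp⟩
  · rintro ⟨a, T, rfl⟩
    have := AllN.ratio_ellipsoid (k := 3) a T
    rw [show petty (3 + 2) = 3375 * π ^ 4 / 16384 from petty_five_eq, ratio,
      div_eq_iff (by positivity)] at this
    exact this.symm

end Vale.Agent.P237.Sharp
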